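import Vale.Agent.P006.GRAM.Riesz
import Mathlib.MeasureTheory.Integral.IntegralEqImproper

/-!
P006, block GRAM: the lattice lemma
`|∑_{ν ≠ 0} g(y N ν) - (2π/(√3 y)) ∫_0^∞ g| ≤ 3000 ∫_0^∞ t |g''(t)| dt` for every `y > 0`.
-/

namespace Vale.Agent.P006.GRAM

open MeasureTheory Set Filter Topology

theorem rsum_nonneg (Y : ℝ) : 0 ≤ rsum Y := tsum_nonneg (fun ν => by
  split_ifs
  · exact le_rfl
  · exact le_max_right _ _)

theorem rsum_le {Y : ℝ} (hY : 0 ≤ Y) : rsum Y ≤ 2 * Y ^ 2 + 3000 * Y := by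
  have h := (abs_le.1 (riesz_mean hY)).2
  have h3 := sqrt3_pos
  have hpi := Real.pi_lt_d2
  have hs : (1.73 : ℝ) < Real.sqrt 3 := by
    rw [Real.lt_sqrt (by norm_num)]; norm_num
  have : Real.pi / Real.sqrt 3 ≤ 2 := by
    rw [div_le_iff₀ h3]; linarith
  nlinarith [sq_nonneg Y]

theorem monotone_rsum : Monotone rsum := by
  intro a b hab
  apply (summable_rsum a).tsum_le_tsum _ (summable_rsum b)
  intro ν
  split_ifs
  · exact le_rfl
  · exact max_le_max (by linarith) le_rfl

/-- superposition of tent functions `s ↦ (t - s)_+` with (complex) density `h` -/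
noncomputable def tent (h : ℝ → ℂ) (s : ℝ) : ℂ := ∫ t in Ioi (0 : ℝ), (max (t - s) 0 : ℝ) • h t

theorem scale_rsum {y : ℝ} (hy : 0 < y) (t : ℝ) :
    y * rsum (t / y) = ∑' ν : O, if ν = 0 then 0 else max (t - y * N ν) 0 := by
  rw [rsum, ← tsum_mul_left]
  apply tsum_congr
  intro ν
  split_ifs with h
  · simp
  · rw [mul_max_of_nonneg _ _ hy.le, mul_zero]
    congr 1
    field_simp

theorem summable_scale {y : ℝ} (hy : 0 < y) (t : ℝ) :
    Summable (fun ν : O => if ν = 0 then 0 else max (t - y * N ν) 0) := by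
  have h := (summable_rsum (t / y)).mul_left y
  refine h.congr (fun ν => ?_)
  split_ifs with h
  · simp
  · rw [mul_max_of_nonneg _ _ hy.le, mul_zero]
    congr 1
    field_simp

theorem aesm_smul {α : Type*} [MeasurableSpace α] {μ : Measure α} {f : α → ℝ} {g : α → ℂ}
    (hf : AEStronglyMeasurable f μ) (hg : AEStronglyMeasurable g μ) :
    AEStronglyMeasurable (fun x => f x • g x) μ := hf.smul hg

theorem integral_tent_kernel {t : ℝ} (ht : 0 < t) :
    ∫ s in Ioi (0 : ℝ), max (t - s) 0 = t ^ 2 / 2 := by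
  have hsub : Ioc (0 : ℝ) t ⊆ Ioi 0 := fun x hx => hx.1
  rw [setIntegral_eq_of_subset_of_forall_sdiff_eq_zero measurableSet_Ioi hsub]
  · rw [← intervalIntegral.integral_of_le ht.le]
    have h6 : ∀ s ∈ uIcc (0 : ℝ) t, HasDerivAt (fun s => t * s - s ^ 2 / 2)
        (max (t - s) 0) s := by
      intro s hs
      rw [uIcc_of_le ht.le] at hs
      rw [max_eq_left (by linarith [hs.2])]
      have h7 : HasDerivAt (fun s : ℝ => t * s - s ^ 2 / 2) (t * 1 - 2 * s ^ (2 - 1) / 2) s :=
        ((hasDerivAt_id s).const_mul t).sub ((hasDerivAt_pow 2 s).div_const 2)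
      convert h7 using 1
      ring
    rw [intervalIntegral.integral_eq_sub_of_hasDerivAt h6
      (Continuous.intervalIntegrable (by fun_prop) _ _)]
    ring
  · rintro s ⟨hs1, hs2⟩
    have : t < s := by
      by_contra hcon
      exact hs2 ⟨hs1, not_lt.1 hcon⟩
    rw [max_eq_right (by linarith)]

theorem integrableOn_tent_kernel {t : ℝ} (_ht : 0 < t) :
    IntegrableOn (fun s => max (t - s) 0) (Ioi (0 : ℝ)) := by
  have h : IntegrableOn (fun s => max (t - s) 0) (Ioc (0 : ℝ) t) :=
    (Continuous.integrableOn_Icc (by fun_prop)).mono_set Ioc_subset_Icc_self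
  refine h.of_forall_sdiff_eq_zero measurableSet_Ioi ?_
  rintro s ⟨hs1, hs2⟩
  have : t < s := by
    by_contra hcon
    exact hs2 ⟨hs1, not_lt.1 hcon⟩
  rw [max_eq_right (by linarith)]

theorem integral_tent {h : ℝ → ℂ} (hm : AEStronglyMeasurable h (volume.restrict (Ioi 0)))
    (h2 : IntegrableOn (fun t => t ^ 2 * ‖h t‖) (Ioi 0)) :
    ∫ s in Ioi (0 : ℝ), tent h s = ∫ t in Ioi (0 : ℝ), (t ^ 2 / 2 : ℝ) • h t := by
  unfold tent
  have hme : AEStronglyMeasurable (Function.uncurry fun s t : ℝ => (max (t - s) 0 : ℝ) • h t)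
      ((volume.restrict (Ioi (0 : ℝ))).prod (volume.restrict (Ioi (0 : ℝ)))) := by
    exact aesm_smul (f := fun p : ℝ × ℝ => max (p.2 - p.1) 0) (g := fun p : ℝ × ℝ => h p.2)
      (Continuous.aestronglyMeasurable (by fun_prop)) hm.comp_snd
  have hint : Integrable (Function.uncurry fun s t : ℝ => (max (t - s) 0 : ℝ) • h t)
      ((volume.restrict (Ioi (0 : ℝ))).prod (volume.restrict (Ioi (0 : ℝ)))) := by
    rw [integrable_prod_iff' hme]
    constructor
    · filter_upwards [ae_restrict_mem measurableSet_Ioi] with t ht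
      exact (integrableOn_tent_kernel ht).smul_const (h t)
    · have e : ∀ᵐ t ∂(volume.restrict (Ioi (0 : ℝ))), t ^ 2 / 2 * ‖h t‖ =
          ∫ s in Ioi (0 : ℝ), ‖(max (t - s) 0 : ℝ) • h t‖ := by
        filter_upwards [ae_restrict_mem measurableSet_Ioi] with t ht
        have e1 : ∀ s, ‖(max (t - s) 0 : ℝ) • h t‖ = max (t - s) 0 * ‖h t‖ := by
          intro s
          rw [norm_smul, Real.norm_eq_abs, abs_of_nonneg (le_max_right _ _)]
        simp only [e1]
        rw [integral_mul_const, integral_tent_kernel ht]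
      refine Integrable.congr ?_ e
      have := h2.mul_const (1 / 2)
      refine this.congr (Eventually.of_forall fun t => ?_)
      dsimp only
      ring
  rw [integral_integral_swap hint]
  apply setIntegral_congr_fun measurableSet_Ioi
  intro t ht
  dsimp only
  rw [integral_smul_const, integral_tent_kernel ht]

/-- **Lattice lemma**, in terms of the second derivative `h`. -/
theorem lattice_tent {h : ℝ → ℂ} (hm : AEStronglyMeasurable h (volume.restrict (Ioi 0)))
    (h1 : IntegrableOn (fun t => t * ‖h t‖) (Ioi 0))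
    (h2 : IntegrableOn (fun t => t ^ 2 * ‖h t‖) (Ioi 0)) {y : ℝ} (hy : 0 < y) :
    Summable (fun ν : O => if ν = 0 then 0 else tent h (y * N ν)) ∧
    ‖(∑' ν : O, if ν = 0 then 0 else tent h (y * N ν)) -
      ((2 * Real.pi / (Real.sqrt 3 * y) : ℝ) : ℂ) * ∫ s in Ioi (0 : ℝ), tent h s‖ ≤
      3000 * ∫ t in Ioi (0 : ℝ), t * ‖h t‖ := by
  set μ := (volume : Measure ℝ).restrict (Ioi (0 : ℝ)) with hμ
  set F : O → ℝ → ℂ := fun ν t => (if ν = 0 then 0 else max (t - y * N ν) 0 : ℝ) • h t with hF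
  have hnn : ∀ (ν : O) (t : ℝ), 0 ≤ (if ν = 0 then 0 else max (t - y * N ν) 0 : ℝ) := by
    intro ν t
    split_ifs
    · exact le_rfl
    · exact le_max_right _ _
  have hle : ∀ (ν : O) (t : ℝ), 0 < t → (if ν = 0 then 0 else max (t - y * N ν) 0 : ℝ) ≤ t := by
    intro ν t ht
    split_ifs
    · exact ht.le
    · have : 0 ≤ y * N ν := by positivity
      exact max_le (by linarith) ht.le
  have hFm : ∀ ν, AEStronglyMeasurable (F ν) μ := by
    intro ν
    apply aesm_smul _ hm
    by_cases hν : ν = 0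
    · simp only [hν, if_true]; exact aestronglyMeasurable_const
    · simp only [hν, if_false]; exact Continuous.aestronglyMeasurable (by fun_prop)
  have hFi : ∀ ν, Integrable (F ν) μ := by
    intro ν
    refine Integrable.mono' h1 (hFm ν) ?_
    filter_upwards [ae_restrict_mem measurableSet_Ioi] with t ht
    rw [hF]
    dsimp only
    rw [norm_smul, Real.norm_eq_abs, abs_of_nonneg (hnn ν t)]
    exact mul_le_mul_of_nonneg_right (hle ν t ht) (norm_nonneg _)
  have hdom : Integrable (fun t => (2 / y * (t ^ 2 * ‖h t‖) + 3000 * (t * ‖h t‖))) μ :=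
    (h2.const_mul _).add (h1.const_mul _)
  have hsum : Summable fun ν => ∫ t, ‖F ν t‖ ∂μ := by
    refine summable_of_sum_le (c := ∫ t, (2 / y * (t ^ 2 * ‖h t‖) + 3000 * (t * ‖h t‖)) ∂μ)
      (fun ν => integral_nonneg fun t => norm_nonneg _) ?_
    intro u
    rw [← integral_finsetSum _ (fun ν _ => (hFi ν).norm)]
    apply integral_mono_ae (integrable_finsetSum _ (fun ν _ => (hFi ν).norm)) hdom
    filter_upwards [ae_restrict_mem measurableSet_Ioi] with t ht
    have e1 : ∀ ν, ‖F ν t‖ = (if ν = 0 then 0 else max (t - y * N ν) 0 : ℝ) * ‖h t‖ := by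
      intro ν
      rw [hF]
      dsimp only
      rw [norm_smul, Real.norm_eq_abs, abs_of_nonneg (hnn ν t)]
    simp only [e1]
    rw [← Finset.sum_mul]
    have e2 : ∑ ν ∈ u, (if ν = 0 then 0 else max (t - y * N ν) 0 : ℝ) ≤ y * rsum (t / y) := by
      rw [scale_rsum hy]
      exact (summable_scale hy t).sum_le_tsum u (fun ν _ => hnn ν t)
    have e3 : y * rsum (t / y) ≤ 2 / y * t ^ 2 + 3000 * t := by
      have := rsum_le (Y := t / y) (div_nonneg (le_of_lt ht) hy.le)
      calc y * rsum (t / y) ≤ y * (2 * (t / y) ^ 2 + 3000 * (t / y)) :=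
            mul_le_mul_of_nonneg_left this hy.le
        _ = 2 / y * t ^ 2 + 3000 * t := by field_simp
    calc (∑ ν ∈ u, (if ν = 0 then 0 else max (t - y * N ν) 0 : ℝ)) * ‖h t‖
        ≤ (2 / y * t ^ 2 + 3000 * t) * ‖h t‖ :=
          mul_le_mul_of_nonneg_right (e2.trans e3) (norm_nonneg _)
      _ = _ := by ring
  have hS := hasSum_integral_of_summable_integral_norm hFi hsum
  have hterm : ∀ ν, ∫ t, F ν t ∂μ = if ν = 0 then 0 else tent h (y * N ν) := by
    intro ν
    by_cases hν : ν = 0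
    · simp [hF, hν]
    · simp only [hF, hν, if_false, tent]; rfl
  simp only [hterm] at hS
  have hpt : ∀ t, ∑' ν, F ν t = (y * rsum (t / y)) • h t := by
    intro t
    rw [hF]
    dsimp only
    rw [scale_rsum hy, (summable_scale hy t).tsum_smul_const]
  simp only [hpt] at hS
  refine ⟨hS.summable, ?_⟩
  rw [hS.tsum_eq, integral_tent hm h2]
  have i1 : Integrable (fun t => (y * rsum (t / y)) • h t) μ := by
    refine Integrable.mono' hdom ?_ ?_
    · apply aesm_smul _ hm
      exact ((monotone_rsum.measurable.comp (by fun_prop : Measurable fun t : ℝ => t / y)).const_mul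
        y).aestronglyMeasurable
    · filter_upwards [ae_restrict_mem measurableSet_Ioi] with t ht
      rw [norm_smul, Real.norm_eq_abs, abs_of_nonneg (mul_nonneg hy.le (rsum_nonneg _))]
      have := rsum_le (Y := t / y) (div_nonneg (le_of_lt ht) hy.le)
      calc y * rsum (t / y) * ‖h t‖ ≤ y * (2 * (t / y) ^ 2 + 3000 * (t / y)) * ‖h t‖ := by
            gcongr
        _ = _ := by field_simp
  have i2 : Integrable (fun t : ℝ => (t ^ 2 / 2 : ℝ) • h t) μ := by
    refine Integrable.mono' (h2.mul_const (1 / 2)) ?_ ?_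
    · exact aesm_smul (Continuous.aestronglyMeasurable (by fun_prop)) hm
    · refine Eventually.of_forall fun t => ?_
      rw [norm_smul, Real.norm_eq_abs, abs_of_nonneg (by positivity)]
      apply le_of_eq
      ring
  rw [← integral_const_mul, ← integral_sub i1 (i2.const_mul _), ← integral_const_mul]
  apply norm_integral_le_of_norm_le (h1.const_mul 3000)
  filter_upwards [ae_restrict_mem measurableSet_Ioi] with t ht
  have e5 : (y * rsum (t / y)) • h t - ((2 * Real.pi / (Real.sqrt 3 * y) : ℝ) : ℂ) *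
      ((t ^ 2 / 2 : ℝ) • h t) =
      (y * (rsum (t / y) - Real.pi / Real.sqrt 3 * (t / y) ^ 2)) • h t := by
    have h3 := sqrt3_pos
    rw [Complex.real_smul, Complex.real_smul, Complex.real_smul, ← mul_assoc, ← Complex.ofReal_mul,
      ← sub_mul, ← Complex.ofReal_sub]
    congr 2
    field_simp
  rw [e5, norm_smul, Real.norm_eq_abs, abs_mul, abs_of_pos hy]
  have := riesz_mean (Y := t / y) (div_nonneg (le_of_lt ht) hy.le)
  calc y * |rsum (t / y) - Real.pi / Real.sqrt 3 * (t / y) ^ 2| * ‖h t‖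
      ≤ y * (3000 * (t / y)) * ‖h t‖ := by gcongr
    _ = 3000 * (t * ‖h t‖) := by field_simp

theorem tent_eq_of_hasDerivAt {g g1 h : ℝ → ℂ} (hg : ∀ s, 0 < s → HasDerivAt g (g1 s) s)
    (hg1 : ∀ s, 0 < s → HasDerivAt g1 (h s) s)
    (hm : AEStronglyMeasurable h (volume.restrict (Ioi 0)))
    (h1 : IntegrableOn (fun t => t * ‖h t‖) (Ioi 0))
    (hg0 : Tendsto g atTop (𝓝 0)) (hg10 : Tendsto (fun t : ℝ => (t : ℂ) * g1 t) atTop (𝓝 0))
    {s : ℝ} (hs : 0 < s) : tent h s = g s := by
  have hsub : Ioi s ⊆ Ioi (0 : ℝ) := Ioi_subset_Ioi hs.le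
  rw [tent, setIntegral_eq_of_subset_of_forall_sdiff_eq_zero measurableSet_Ioi hsub]
  · have e1 : ∫ t in Ioi s, (max (t - s) 0 : ℝ) • h t = ∫ t in Ioi s, ((t : ℂ) - s) * h t := by
      apply setIntegral_congr_fun measurableSet_Ioi
      intro t ht
      dsimp only
      rw [max_eq_left (by linarith [mem_Ioi.1 ht]), Complex.real_smul]
      push_cast
      ring
    rw [e1]
    have hg1' : Tendsto g1 atTop (𝓝 0) := by
      have h3 : Tendsto (fun t : ℝ => ((t : ℂ))⁻¹ * ((t : ℂ) * g1 t)) atTop (𝓝 (0 * 0)) := by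
        apply Tendsto.mul _ hg10
        rw [tendsto_zero_iff_norm_tendsto_zero]
        have : (fun t : ℝ => ‖((t : ℂ))⁻¹‖) = fun t : ℝ => |t|⁻¹ := by
          funext t; rw [norm_inv, Complex.norm_real, Real.norm_eq_abs]
        rw [this]
        exact tendsto_inv_atTop_zero.comp tendsto_abs_atTop_atTop
      rw [mul_zero] at h3
      refine h3.congr' ?_
      filter_upwards [eventually_gt_atTop 0] with t ht
      have : (t : ℂ) ≠ 0 := by exact_mod_cast ht.ne'
      field_simp
    have hF : ∀ t ∈ Ioi s, HasDerivAt (fun t : ℝ => ((t : ℂ) - s) * g1 t - g t)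
        (((t : ℂ) - s) * h t) t := by
      intro t ht
      have ht0 : 0 < t := hs.trans ht
      have d1 : HasDerivAt (fun t : ℝ => (t : ℂ) - s) 1 t :=
        (Complex.ofRealCLM.hasDerivAt (x := t)).sub_const _
      have d2 := (d1.mul (hg1 t ht0)).sub (hg t ht0)
      have e3 : 1 * g1 t + ((t : ℂ) - s) * h t - g1 t = ((t : ℂ) - s) * h t := by ring
      rw [e3] at d2
      exact d2
    have hcont : ContinuousWithinAt (fun t : ℝ => ((t : ℂ) - s) * g1 t - g t) (Ici s) s := by
      apply ContinuousAt.continuousWithinAt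
      have c1 := (hg1 s hs).continuousAt
      have c2 := (hg s hs).continuousAt
      fun_prop
    have hint : IntegrableOn (fun t : ℝ => ((t : ℂ) - s) * h t) (Ioi s) := by
      refine Integrable.mono' (h1.mono_set hsub) ?_ ?_
      · have hm' : AEStronglyMeasurable h (volume.restrict (Ioi s)) :=
          hm.mono_measure (Measure.restrict_mono hsub le_rfl)
        exact AEStronglyMeasurable.mul (Continuous.aestronglyMeasurable (by fun_prop)) hm'
      · filter_upwards [ae_restrict_mem measurableSet_Ioi] with t ht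
        have ht' : s < t := ht
        rw [norm_mul]
        apply mul_le_mul_of_nonneg_right _ (norm_nonneg _)
        rw [← Complex.ofReal_sub, Complex.norm_real, Real.norm_eq_abs, abs_of_pos (by linarith)]
        linarith
    have hlim : Tendsto (fun t : ℝ => ((t : ℂ) - s) * g1 t - g t) atTop (𝓝 0) := by
      have h4 : Tendsto (fun t : ℝ => (t : ℂ) * g1 t - (s : ℂ) * g1 t - g t) atTop
          (𝓝 (0 - (s : ℂ) * 0 - 0)) := (hg10.sub (hg1'.const_mul _)).sub hg0
      simp only [mul_zero, sub_zero] at h4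
      refine h4.congr (fun t => ?_)
      rw [sub_mul]
    rw [integral_Ioi_of_hasDerivAt_of_tendsto hcont hF hint hlim]
    simp
  · rintro t ⟨_, ht2⟩
    have ht3 : t ≤ s := not_lt.1 ht2
    rw [max_eq_right (by linarith), zero_smul]

/-- **Lattice lemma** for a twice differentiable function. -/
theorem lattice_lemma {g g1 h : ℝ → ℂ} (hg : ∀ s, 0 < s → HasDerivAt g (g1 s) s)
    (hg1 : ∀ s, 0 < s → HasDerivAt g1 (h s) s)
    (hm : AEStronglyMeasurable h (volume.restrict (Ioi 0)))
    (h1 : IntegrableOn (fun t => t * ‖h t‖) (Ioi 0))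
    (h2 : IntegrableOn (fun t => t ^ 2 * ‖h t‖) (Ioi 0))
    (hg0 : Tendsto g atTop (𝓝 0)) (hg10 : Tendsto (fun t : ℝ => (t : ℂ) * g1 t) atTop (𝓝 0))
    {y : ℝ} (hy : 0 < y) :
    Summable (fun ν : O => if ν = 0 then 0 else g (y * N ν)) ∧
    ‖(∑' ν : O, if ν = 0 then 0 else g (y * N ν)) -
      ((2 * Real.pi / (Real.sqrt 3 * y) : ℝ) : ℂ) * ∫ s in Ioi (0 : ℝ), g s‖ ≤
      3000 * ∫ t in Ioi (0 : ℝ), t * ‖h t‖ := by
  have key := lattice_tent hm h1 h2 hy
  have e1 : (fun ν : O => if ν = 0 then 0 else tent h (y * N ν)) =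
      fun ν : O => if ν = 0 then 0 else g (y * N ν) := by
    funext ν
    split_ifs with hν
    · rfl
    · apply tent_eq_of_hasDerivAt hg hg1 hm h1 hg0 hg10
      have : (0 : ℝ) < N ν := by exact_mod_cast N_pos hν
      positivity
  have e2 : ∫ s in Ioi (0 : ℝ), tent h s = ∫ s in Ioi (0 : ℝ), g s := by
    apply setIntegral_congr_fun measurableSet_Ioi
    intro s hs
    exact tent_eq_of_hasDerivAt hg hg1 hm h1 hg0 hg10 hs
  rw [e1, e2] at key
  exact key

end Vale.Agent.P006.GRAM
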