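import Vale.Agent.P006.GRAM.Gram
import Vale.Agent.P006.H9.Main

/-!
P006, block GRAM: evaluation of the right-hand sides of the strip inequalities.
-/

namespace Vale.Agent.P006.GRAM

open MeasureTheory Set Filter Topology Vale.Agent.P006 KU
open Vale.Agent.P006.H9 (H3 muH P3 box area E Ptop Ediff RowChar Decay)

/-- the inner product `∫ f conj g x dx` -/
noncomputable def IP (f g : ℝ → ℂ) : ℂ :=
  ∫ x in Ioi (0 : ℝ), (x : ℂ) * (f x * (starRingEnd ℂ) (g x))

section

variable {f g H H1 : ℝ → ℂ}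

theorem IP_self (f : ℝ → ℂ) : IP f f = (nrm2 f : ℂ) := by
  have h := integral_ofReal (μ := volume.restrict (Ioi (0 : ℝ))) (f := fun x : ℝ => x * ‖f x‖ ^ 2)
    (𝕜 := ℂ)
  rw [IP, nrm2]
  refine Eq.trans ?_ h
  congr 1; funext x
  rw [Complex.mul_conj, Complex.normSq_eq_norm_sq]
  push_cast; rfl

theorem nrm2_nonneg (f : ℝ → ℂ) : 0 ≤ nrm2 f :=
  setIntegral_nonneg measurableSet_Ioi fun _ hx => mul_nonneg (le_of_lt hx) (by positivity)

theorem integrable_IP (hf : CL f) (hg : CL g) :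
    IntegrableOn (fun x : ℝ => (x : ℂ) * (f x * (starRingEnd ℂ) (g x))) (Ioi 0) := by
  have hm : AEStronglyMeasurable (fun x : ℝ => (x : ℂ) * (f x * (starRingEnd ℂ) (g x)))
      (volume.restrict (Ioi 0)) :=
    ((by fun_prop : Measurable fun x : ℝ => (x : ℂ)).mul (hf.meas.mul
      (Complex.continuous_conj.measurable.comp hg.meas))).aestronglyMeasurable
  refine Integrable.mono' ((hf.intOn_sq).add (hg.intOn_sq)) hm ?_
  filter_upwards [ae_restrict_mem measurableSet_Ioi] with x hx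
  have hx0 : 0 < x := hx
  rw [norm_mul, norm_mul, RCLike.norm_conj, Complex.norm_real, Real.norm_eq_abs, abs_of_pos hx0,
    Pi.add_apply, ← mul_add]
  apply mul_le_mul_of_nonneg_left _ hx0.le
  nlinarith [sq_nonneg (‖f x‖ - ‖g x‖), sq_nonneg (‖f x‖), sq_nonneg (‖g x‖)]

/-- evaluation of an integral over the strip from the constant term -/
theorem strip_ct {F : H3 → ℂ}
    (hint : Integrable (fun w : H3 => f (1 / w.v) * (starRingEnd ℂ) (F w)) (muH.restrict P3))
    {CT : ℝ → ℂ} (hCT : ∀ v, 0 < v → ∫ z in box, F (H3.of z v) = CT v) :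
    ∫ w in P3, f (1 / w.v) * (starRingEnd ℂ) (F w) ∂muH =
      ∫ x in Ioi (0 : ℝ), (x : ℂ) * (f x * (starRingEnd ℂ) (CT (1 / x))) := by
  rw [H9.integral_P3 hint]
  have e : ∫ v in Ioi (0 : ℝ), (((v ^ 3)⁻¹ : ℝ) : ℂ) *
      ∫ z in box, f (1 / (H3.of z v).v) * (starRingEnd ℂ) (F (H3.of z v)) =
      ∫ v in Ioi (0 : ℝ), (((v ^ 3)⁻¹ : ℝ) : ℂ) * (f (1 / v) * (starRingEnd ℂ) (CT v)) := by
    refine setIntegral_congr_fun measurableSet_Ioi fun v hv => ?_
    have hv0 : 0 < v := hv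
    rw [← hCT v hv0, ← integral_conj, ← integral_const_mul, ← integral_const_mul,
      ← integral_const_mul]
    congr 1; funext z
    rw [H3.of_v hv0]
  rw [e, integral_inv_var (fun v => f (1 / v) * (starRingEnd ℂ) (CT v))]
  refine setIntegral_congr_fun measurableSet_Ioi fun x _ => ?_
  rw [one_div_one_div]

/-- value of the integral for constant terms of the shape
`a g(1/v) + b v ∑_{q ∣ m} + b' v ∑_{q' ∣ m}` -/
theorem ct_eval (hf : CL f) (hg : CL g) (h : HPair f g H H1) (a b b' : ℝ) (q q' : O) :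
    ∫ x in Ioi (0 : ℝ), (x : ℂ) * (f x * (starRingEnd ℂ) ((a : ℂ) * g (1 / (1 / x)) +
      (b * (1 / x) : ℝ) * CTq g q (1 / x) + (b' * (1 / x) : ℝ) * CTq g q' (1 / x))) =
      (a : ℂ) * IP f g + (b : ℂ) * Tq H q + (b' : ℂ) * Tq H q' := by
  have i1 := (integrable_IP hf hg).const_mul (a : ℂ)
  have i2 := (integrable_CTq hf hg q).const_mul (b : ℂ)
  have i3 := (integrable_CTq hf hg q').const_mul (b' : ℂ)
  have i4 : Integrable (fun x : ℝ => (a : ℂ) * ((x : ℂ) * (f x * (starRingEnd ℂ) (g x))) +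
      (b : ℂ) * (f x * (starRingEnd ℂ) (CTq g q (1 / x)))) (volume.restrict (Ioi 0)) := i1.add i2
  rw [← integral_CTq hf hg h q, ← integral_CTq hf hg h q', IP, ← integral_const_mul,
    ← integral_const_mul, ← integral_const_mul, ← integral_add i1 i2, ← integral_add i4 i3]
  refine setIntegral_congr_fun measurableSet_Ioi fun x hx => ?_
  have hx0 : 0 < x := hx
  have hx1 : (x : ℂ) ≠ 0 := by exact_mod_cast hx0.ne'
  rw [one_div_one_div]
  simp only [map_add, map_mul, Complex.conj_ofReal]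
  push_cast
  field_simp

/-- the error term -/
noncomputable def Err (H H1 : ℝ → ℂ) (A : ℝ) : ℝ :=
  (12000 * (1 + 2 * Real.log A)) * (2 * nJ0 H + 3 * nJ1 H1) + 6020 * cZ * (nL H / A)

/-- the noise of a profile -/
noncomputable def noise (f H H1 : ℝ → ℂ) (A : ℝ) : ℝ :=
  nrm2 f + (1 + Real.log A) * (nJ0 H + nJ1 H1) + nL H / A

/-- the constant relating `Err` and `noise` -/
noncomputable def cE : ℝ := 72000 + 6020 * cZ

theorem cE_nonneg : 0 ≤ cE := by have := cZ_nonneg; unfold cE; positivity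

theorem noise_nonneg (f H H1 : ℝ → ℂ) {A : ℝ} (hA : 1 ≤ A) : 0 ≤ noise f H H1 A := by
  have h1 := nrm2_nonneg f
  have h2 := nJ0_nonneg (H := H)
  have h3 := nJ1_nonneg (H1 := H1)
  have h4 := nL_nonneg (H := H)
  have h5 := Real.log_nonneg hA
  unfold noise; positivity

theorem Err_le (f H H1 : ℝ → ℂ) {A : ℝ} (hA : 1 ≤ A) :
    Err H H1 A ≤ cE * noise f H H1 A := by
  have h1 := nrm2_nonneg f
  have h2 := nJ0_nonneg (H := H)
  have h3 := nJ1_nonneg (H1 := H1)
  have h4 := nL_nonneg (H := H)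
  have h5 := Real.log_nonneg hA
  have h6 := cZ_nonneg
  have h7 : 0 ≤ nL H / A := by positivity
  unfold Err noise cE
  have h8 : 12000 * (1 + 2 * Real.log A) * (2 * nJ0 H + 3 * nJ1 H1) ≤
      72000 * ((1 + Real.log A) * (nJ0 H + nJ1 H1)) := by
    have h9 : (1 + 2 * Real.log A) ≤ 2 * (1 + Real.log A) := by linarith
    have h10 : (2 * nJ0 H + 3 * nJ1 H1) ≤ 3 * (nJ0 H + nJ1 H1) := by linarith
    calc 12000 * (1 + 2 * Real.log A) * (2 * nJ0 H + 3 * nJ1 H1)
        ≤ 12000 * (2 * (1 + Real.log A)) * (3 * (nJ0 H + nJ1 H1)) := by gcongr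
      _ = _ := by ring
  have h11 : 0 ≤ (1 + Real.log A) * (nJ0 H + nJ1 H1) := by positivity
  calc _ ≤ 72000 * ((1 + Real.log A) * (nJ0 H + nJ1 H1)) + 6020 * cZ * (nL H / A) := by linarith
    _ ≤ (72000 + 6020 * cZ) * ((1 + Real.log A) * (nJ0 H + nJ1 H1)) +
        (72000 + 6020 * cZ) * (nL H / A) := by
        gcongr
        · linarith [mul_nonneg (show (0:ℝ) ≤ 6020 by norm_num) h6]
        · linarith
    _ ≤ _ := by
        have : 0 ≤ (72000 + 6020 * cZ) * nrm2 f := by positivity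
        linarith

/-- bound for the evaluated expression when the main terms cancel -/
theorem eval_bound (h : HPair f g H H1) {q q' : O} {ell ell' : O → O} (hl : IsEll q ell)
    (hl' : IsEll q' ell') {A : ℝ} (hA : 1 ≤ A) (a b b' : ℝ) (w : ℂ)
    (hmain : (b * Dq ell + b' * Dq ell' = 0) ∨ Lam H = 0) :
    ‖(a : ℂ) * w + (b : ℂ) * Tq H q + (b' : ℂ) * Tq H q'‖ ≤
      |a| * ‖w‖ + (|b| + |b'|) * Err H H1 A := by
  have h1 := Tq_asymp h.hd hl hA
  have h2 := Tq_asymp h.hd hl' hA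
  set L := Lam H
  set c : ℝ := 2 * Real.pi / Real.sqrt 3
  have e : (a : ℂ) * w + (b : ℂ) * Tq H q + (b' : ℂ) * Tq H q' =
      (a : ℂ) * w + (b : ℂ) * (Tq H q - ((c * Dq ell : ℝ) : ℂ) * L) +
        (b' : ℂ) * (Tq H q' - ((c * Dq ell' : ℝ) : ℂ) * L) := by
    have h3 : (b : ℂ) * (((c * Dq ell : ℝ) : ℂ) * L) + (b' : ℂ) * (((c * Dq ell' : ℝ) : ℂ) * L) =
        0 := by
      rcases hmain with h | h
      · have : ((b * Dq ell + b' * Dq ell' : ℝ) : ℂ) = 0 := by rw [h]; simp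
        push_cast at this ⊢
        linear_combination ((c : ℂ) * L) * this
      · rw [h]; simp
    linear_combination h3
  rw [e]
  refine (norm_add_le _ _).trans ?_
  refine (add_le_add_left (norm_add_le _ _) _).trans ?_
  rw [norm_mul, norm_mul, norm_mul, Complex.norm_real, Complex.norm_real, Complex.norm_real,
    Real.norm_eq_abs, Real.norm_eq_abs, Real.norm_eq_abs, add_mul, ← add_assoc]
  have h3 : |b| * ‖Tq H q - ((c * Dq ell : ℝ) : ℂ) * L‖ ≤ |b| * Err H H1 A := by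
    gcongr; exact h1
  have h4 : |b'| * ‖Tq H q' - ((c * Dq ell' : ℝ) : ℂ) * L‖ ≤ |b'| * Err H H1 A := by
    gcongr; exact h2
  linarith

end

end Vale.Agent.P006.GRAM
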