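import Vale.Agent.P006.KU.Phi
import Vale.Agent.P006.TI.Mu

/-!
P006, block GRAM: `beta m = ∑_{d ∣ m} μ(d)/N(d)`.
-/

namespace Vale.Agent.P006.GRAM

open Vale.Agent.P006 KU Finset
open Vale.Agent.P006.TI (mu)

theorem dvs_prime_mul_mu {π b : O} (hπ : Prime π) (hp : Primary π) (hb : Primary b) (h : π ∣ b)
    {f : O → ℝ} : ∑ d ∈ dvs (π * b), (mu d : ℝ) * f d = ∑ d ∈ dvs b, (mu d : ℝ) * f d := by
  have hb0 := hb.ne_zero
  have hpb0 : π * b ≠ 0 := (hp.mul hb).ne_zero
  symm
  apply sum_subset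
  · intro d hd
    rw [mem_dvs hb0] at hd
    rw [mem_dvs hpb0]
    exact ⟨hd.1, hd.2.mul_left _⟩
  · intro d hd hd'
    rw [mem_dvs hpb0] at hd
    rw [mem_dvs hb0] at hd'
    have hmu : mu d = 0 := by
      by_contra hne
      have hsq := TI.squarefree_of_mu_ne_zero hne
      apply hd'
      refine ⟨hd.1, ?_⟩
      by_cases hπd : π ∣ d
      · obtain ⟨d', rfl⟩ := hπd
        have hd'0 : d' ≠ 0 := by
          rintro rfl
          simp at hsq
        have h1 : d' ∣ b := by
          rcases hd.2 with ⟨t, ht⟩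
          refine ⟨t, ?_⟩
          apply mul_left_cancel₀ hπ.ne_zero
          rw [ht]; ring
        have h2 : ¬ π ∣ d' := by
          intro h3
          obtain ⟨e, rfl⟩ := h3
          have := hsq π ⟨e, by ring⟩
          exact hπ.not_isUnit this
        have h3 : IsCoprime π d' := (hπ.irreducible.coprime_iff_not_dvd).2 h2
        exact h3.mul_dvd h h1
      · have h3 : IsCoprime π d := (hπ.irreducible.coprime_iff_not_dvd).2 hπd
        exact h3.symm.dvd_of_dvd_mul_left hd.2
    rw [hmu]; simp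

theorem dvs_prime_mul_of_not_dvd {π b : O} (hπ : Prime π) (hp : Primary π) (hb : Primary b)
    (h : ¬ π ∣ b) {f : O → ℝ} :
    ∑ d ∈ dvs (π * b), (mu d : ℝ) * f d =
      ∑ d ∈ dvs b, (mu d : ℝ) * f d - ∑ d ∈ dvs b, (mu d : ℝ) * f (π * d) := by
  classical
  have hb0 := hb.ne_zero
  have hpb0 : π * b ≠ 0 := (hp.mul hb).ne_zero
  have e : dvs (π * b) = dvs b ∪ (dvs b).image (fun d => π * d) := by
    ext d
    rw [mem_union, mem_image, mem_dvs hb0, mem_dvs hpb0]
    constructor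
    · rintro ⟨h1, h2⟩
      by_cases hπd : π ∣ d
      · right
        obtain ⟨d', rfl⟩ := hπd
        refine ⟨d', ?_, rfl⟩
        rw [mem_dvs hb0]
        exact ⟨hp.of_mul h1, (mul_dvd_mul_iff_left hπ.ne_zero).1 h2⟩
      · left
        have h3 : IsCoprime π d := (hπ.irreducible.coprime_iff_not_dvd).2 hπd
        exact ⟨h1, h3.symm.dvd_of_dvd_mul_left h2⟩
    · rintro (⟨h1, h2⟩ | ⟨d', h1, rfl⟩)
      · exact ⟨h1, h2.mul_left _⟩
      · rw [mem_dvs hb0] at h1
        exact ⟨hp.mul h1.1, mul_dvd_mul_left _ h1.2⟩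
  have hdis : Disjoint (dvs b) ((dvs b).image (fun d => π * d)) := by
    rw [disjoint_left]
    intro d hd hd'
    rw [mem_image] at hd'
    obtain ⟨d', _, rfl⟩ := hd'
    rw [mem_dvs hb0] at hd
    exact h ((dvd_mul_right _ _).trans hd.2)
  rw [e, sum_union hdis, sum_image (fun x _ y _ hxy => mul_left_cancel₀ hπ.ne_zero hxy),
    sub_eq_add_neg, ← sum_neg_distrib]
  congr 1
  apply sum_congr rfl
  intro d hd
  rw [mem_dvs hb0] at hd
  have h4 : ¬ π ∣ d := fun h' => h (h'.trans hd.2)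
  rw [TI.mu_prime_mul hπ h4]
  push_cast
  ring

theorem beta_primary : ∀ c : O, Primary c → beta c = ∑ d ∈ dvs c, (mu d : ℝ) * (1 / (N d : ℝ)) := by
  apply Primary.induction
  · have : dvs (1 : O) = {1} := by
      ext d
      rw [mem_dvs one_ne_zero, mem_singleton]
      constructor
      · rintro ⟨h1, h2⟩; exact h1.eq_one (isUnit_of_dvd_one h2)
      · rintro rfl; exact ⟨primary_one, dvd_rfl⟩
    rw [this, beta, pdv_one]
    simp [TI.mu_one]
  · intro π b hπ hp hb ih
    have hb0 := hb.ne_zero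
    by_cases h : π ∣ b
    · rw [dvs_prime_mul_mu hπ hp hb h, ← ih, beta, beta]
      congr 1
      rw [pdv_mul hp hb, pdv_prime hπ hp, union_eq_right, singleton_subset_iff, mem_pdv hb0]
      exact ⟨hp, hπ, h⟩
    · rw [dvs_prime_mul_of_not_dvd hπ hp hb h, ← ih, beta, pdv_mul hp hb, pdv_prime hπ hp]
      have hd : Disjoint ({π} : Finset O) (pdv b) := by
        rw [disjoint_singleton_left, mem_pdv hb0]
        exact fun h' => h h'.2.2
      rw [prod_union hd, prod_singleton]
      have e : ∑ d ∈ dvs b, (mu d : ℝ) * (1 / (N (π * d) : ℝ)) =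
          (1 / (N π : ℝ)) * ∑ d ∈ dvs b, (mu d : ℝ) * (1 / (N d : ℝ)) := by
        rw [mul_sum]
        apply sum_congr rfl
        intro d _
        rw [N_mul]; push_cast
        have : (N π : ℝ) ≠ 0 := by
          have := N_pos hπ.ne_zero
          positivity
        by_cases hd0 : (N d : ℝ) = 0
        · simp [hd0]
        · field_simp
      rw [e, ← ih, beta]
      ring

theorem dvs_unit_lam {u m : O} {k : ℕ} (hu : IsUnit u) (hm : Primary m) :
    dvs (u * lam ^ k * m) = dvs m := by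
  have h0 : u * lam ^ k * m ≠ 0 :=
    mul_ne_zero (mul_ne_zero hu.ne_zero (pow_ne_zero _ prime_lam.ne_zero)) hm.ne_zero
  ext d
  rw [mem_dvs h0, mem_dvs hm.ne_zero]
  refine and_congr_right fun hd => ?_
  constructor
  · intro h
    have h0 : IsCoprime d u := by
      obtain ⟨v, rfl⟩ := hu
      exact ⟨0, (v⁻¹ : Oˣ), by simp⟩
    have h1 : IsCoprime d (u * lam ^ k) :=
      IsCoprime.mul_right h0 (hd.isCoprime_lam.symm.pow_right)
    exact h1.dvd_of_dvd_mul_left h
  · intro h; exact h.mul_left _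

/-- `beta m = ∑_{d ∣ m} μ(d)/N(d)` -/
theorem beta_eq {m : O} (hm : m ≠ 0) : beta m = ∑ d ∈ dvs m, (mu d : ℝ) * (1 / (N d : ℝ)) := by
  obtain ⟨u, c0, k, hu, hc0, hc⟩ := exists_factor m hm
  have hc0p : Primary c0 := hc0
  rw [hc, beta_unit_lam hu hc0p.ne_zero, dvs_unit_lam hu hc0p]
  exact beta_primary c0 hc0p

theorem beta_nonneg {m : O} (hm : m ≠ 0) : 0 ≤ beta m := by
  apply prod_nonneg
  intro p hp
  rw [mem_pdv hm] at hp
  have : (1 : ℝ) ≤ N p := by exact_mod_cast N_pos hp.2.1.ne_zero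
  rw [sub_nonneg, div_le_one (by linarith)]
  exact this

theorem beta_le_one {m : O} (hm : m ≠ 0) : beta m ≤ 1 := by
  apply prod_le_one
  · intro p hp
    rw [mem_pdv hm] at hp
    have : (1 : ℝ) ≤ N p := by exact_mod_cast N_pos hp.2.1.ne_zero
    rw [sub_nonneg, div_le_one (by linarith)]
    exact this
  · intro p hp
    have : (0 : ℝ) ≤ 1 / (N p : ℝ) := by positivity
    linarith

end Vale.Agent.P006.GRAM
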