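import Vale.Agent.P006.GRAM.KernSum
import Vale.Agent.P006.GRAM.Beta
import Vale.Agent.P006.H357.Base
import Vale.Agent.P006.H845.Sums

/-!
P006, block GRAM: asymptotics of `∑_{m ≠ 0, q ∣ m} beta m * kk H (N m)`.
-/

namespace Vale.Agent.P006.GRAM

open MeasureTheory Set Filter Topology Vale.Agent.P006 KU
open Vale.Agent.P006.TI (mu)

open Classical in
/-- the weight `μ(a)/N(a)` on primary elements -/
noncomputable def wmu (a : O) : ℝ := if Primary a then (mu a : ℝ) * (1 / (N a : ℝ)) else 0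

theorem abs_wmu_le (a : O) : |wmu a| ≤ (N a : ℝ) ^ (-(1 : ℝ)) := by
  unfold wmu
  split_ifs with h
  · rw [abs_mul, Real.rpow_neg_one, one_div]
    have h1 : |(mu a : ℝ)| ≤ 1 := by exact_mod_cast TI.abs_mu_le a
    have h2 : |((N a : ℝ))⁻¹| = (N a : ℝ)⁻¹ := abs_of_nonneg (by positivity)
    rw [h2]
    calc |(mu a : ℝ)| * (N a : ℝ)⁻¹ ≤ 1 * (N a : ℝ)⁻¹ := by gcongr
      _ = _ := one_mul _
  · rw [abs_zero]; positivity

theorem wmu_of_not {a : O} (h : ¬ Primary a) : wmu a = 0 := by rw [wmu, if_neg h]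

theorem wmu_zero : wmu 0 = 0 := wmu_of_not (fun h => h.ne_zero rfl)

/-- the sum `∑_{m ≠ 0, q ∣ m} beta m * kk H (N m)` -/
noncomputable def Tq (H : ℝ → ℂ) (q : O) : ℂ :=
  open Classical in ∑' m : O, if m ≠ 0 ∧ q ∣ m then (beta m : ℂ) * kk H (N m) else 0

/-- the data describing `q ∣ m ∧ a ∣ m ↔ ell a ∣ m` -/
structure IsEll (q : O) (ell : O → O) : Prop where
  iff : ∀ a, Primary a → ∀ m, (q ∣ m ∧ a ∣ m) ↔ ell a ∣ m
  ne : ∀ a, ell a ≠ 0
  le : ∀ a, N a ≤ N (ell a)

/-- `∑_a μ(a)/(N(a) N(ell a))` -/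
noncomputable def Dq (ell : O → O) : ℝ := ∑' a : O, wmu a * (1 / (N (ell a) : ℝ))

section

variable {H H1 : ℝ → ℂ} {q : O} {ell : O → O}

/-- double sum, version 1 -/
noncomputable def G2 (H : ℝ → ℂ) (ell : O → O) (p : O × O) : ℂ :=
  open Classical in (wmu p.1 : ℂ) * (if p.2 = 0 then 0 else kk H (N (ell p.1) * N p.2))

/-- double sum, version 2 -/
noncomputable def F2 (H : ℝ → ℂ) (ell : O → O) (p : O × O) : ℂ :=
  open Classical in (wmu p.1 : ℂ) * (if p.2 ≠ 0 ∧ ell p.1 ∣ p.2 then kk H (N p.2) else 0)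

theorem N_ell_pos (hl : IsEll q ell) (a : O) : (0 : ℝ) < N (ell a) := by
  exact_mod_cast N_pos (hl.ne a)

theorem summable_G2 (h : HD H H1) (hl : IsEll q ell) : Summable (G2 H ell) := by
  classical
  set g : O × O → ℝ := fun p => |wmu p.1| *
    (if p.2 = 0 then 0 else Ka H ((N (ell p.1) * N p.2) ^ 3)) with hg
  have hg0 : ∀ p, 0 ≤ g p := by
    intro p
    apply mul_nonneg (abs_nonneg _)
    split_ifs
    · exact le_rfl
    · exact Ka_nonneg _
  have hsum : Summable g := by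
    rw [summable_prod_of_nonneg hg0]
    constructor
    · intro a
      refine ((summable_Ka h (N_ell_pos hl a)).mul_left |wmu a|).congr (fun b => ?_)
      by_cases hb : b = 0
      · simp [hg, hb]
      · simp [hg, hb]
    · have h1 := (HB.summable_N_rpow (s := 2) (by norm_num)).mul_left (6010 * nL H)
      refine Summable.of_nonneg_of_le (fun a => tsum_nonneg fun b => hg0 (a, b)) (fun a => ?_) h1
      rw [hg]
      dsimp only
      rw [tsum_mul_left]
      have h2 := tsum_Ka_le h (N_ell_pos hl a)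
      have hN := N_ell_pos hl a
      by_cases ha : a = 0
      · subst ha
        rw [wmu_zero, abs_zero, zero_mul]
        have := nL_nonneg (H := H)
        positivity
      have hNa : (0 : ℝ) < N a := by exact_mod_cast N_pos ha
      calc |wmu a| * ∑' b : O, (if b = 0 then 0 else Ka H ((N (ell a) * N b) ^ 3))
          ≤ (N a : ℝ) ^ (-(1 : ℝ)) * (6010 / N (ell a) * nL H) := by
            apply mul_le_mul (abs_wmu_le a) h2 (tsum_nonneg fun b => ?_) (by positivity)
            split_ifs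
            · exact le_rfl
            · exact Ka_nonneg _
        _ ≤ (N a : ℝ) ^ (-(1 : ℝ)) * (6010 / N a * nL H) := by
            have := nL_nonneg (H := H)
            have h5 : (N a : ℝ) ≤ N (ell a) := by exact_mod_cast hl.le a
            gcongr
        _ = 6010 * nL H * (N a : ℝ) ^ (-(2 : ℝ)) := by
            rw [Real.rpow_neg_one, show (-(2 : ℝ)) = -((2 : ℕ) : ℝ) by norm_num, Real.rpow_neg hNa.le,
              Real.rpow_natCast]
            field_simp
  refine Summable.of_norm_bounded hsum (fun p => ?_)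
  rw [G2, hg, norm_mul, Complex.norm_real, Real.norm_eq_abs]
  apply mul_le_mul_of_nonneg_left _ (abs_nonneg _)
  split_ifs
  · simp
  · exact norm_kk_le _

/-- the reindexing map -/
def psi2 (ell : O → O) (p : O × O) : O × O := (p.1, ell p.1 * p.2)

theorem psi2_injective (hl : IsEll q ell) : Function.Injective (psi2 ell) := by
  rintro ⟨a, b⟩ ⟨a', b'⟩ h
  simp only [psi2, Prod.mk.injEq] at h
  obtain ⟨rfl, h2⟩ := h
  rw [mul_left_cancel₀ (hl.ne a) h2]

theorem F2_psi2 (hl : IsEll q ell) (p : O × O) : F2 H ell (psi2 ell p) = G2 H ell p := by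
  classical
  obtain ⟨a, b⟩ := p
  by_cases hb : b = 0
  · simp [F2, G2, psi2, hb]
  · have h1 : ell a * b ≠ 0 := mul_ne_zero (hl.ne a) hb
    simp [F2, G2, psi2, hb, hl.ne a]

theorem support_F2 : Function.support (F2 H ell) ⊆ Set.range (psi2 ell) := by
  classical
  rintro ⟨a, m⟩ hp
  rw [Function.mem_support, F2] at hp
  dsimp only at hp
  have : m ≠ 0 ∧ ell a ∣ m := by
    by_contra hcon
    rw [if_neg hcon, mul_zero] at hp
    exact hp rfl
  obtain ⟨b, hb⟩ := this.2
  exact ⟨(a, b), by simp [psi2, hb]⟩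

theorem summable_F2 (h : HD H H1) (hl : IsEll q ell) : Summable (F2 H ell) := by
  have h1 := summable_G2 h hl
  have h2 : F2 H ell ∘ psi2 ell = G2 H ell := funext (F2_psi2 hl)
  rw [← h2] at h1
  exact ((psi2_injective hl).summable_iff (fun x hx => by
    by_contra hcon
    exact hx (support_F2 hcon))).1 h1

theorem tsum_F2 (hl : IsEll q ell) : ∑' p, F2 H ell p = ∑' p, G2 H ell p := by
  rw [← (psi2_injective hl).tsum_eq support_F2]
  exact tsum_congr (F2_psi2 hl)

/-- inner sum over `a` -/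
theorem tsum_F2_left (hl : IsEll q ell) (m : O) :
    ∑' a, F2 H ell (a, m) = open Classical in
      if m ≠ 0 ∧ q ∣ m then (beta m : ℂ) * kk H (N m) else 0 := by
  classical
  by_cases hm : m ≠ 0 ∧ q ∣ m
  · rw [if_pos hm]
    have h1 : ∀ a ∉ dvs m, F2 H ell (a, m) = 0 := by
      intro a ha
      rw [mem_dvs hm.1] at ha
      simp only [F2]
      by_cases hp : Primary a
      · have h2 : ¬ (m ≠ 0 ∧ ell a ∣ m) := by
          rintro ⟨_, h3⟩
          exact ha ⟨hp, ((hl.iff a hp m).2 h3).2⟩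
        rw [if_neg h2, mul_zero]
      · rw [wmu_of_not hp]; simp
    rw [tsum_eq_sum h1, beta_eq hm.1]
    push_cast
    rw [Finset.sum_mul]
    apply Finset.sum_congr rfl
    intro a ha
    rw [mem_dvs hm.1] at ha
    simp only [F2]
    have h3 : ell a ∣ m := (hl.iff a ha.1 m).1 ⟨hm.2, ha.2⟩
    rw [if_pos ⟨hm.1, h3⟩, wmu, if_pos ha.1]
    push_cast
    rfl
  · rw [if_neg hm]
    convert tsum_zero with a
    simp only [F2]
    by_cases hp : Primary a
    · have h2 : ¬ (m ≠ 0 ∧ ell a ∣ m) := by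
        rintro ⟨h3, h4⟩
        exact hm ⟨h3, ((hl.iff a hp m).2 h4).1⟩
      rw [if_neg h2, mul_zero]
    · rw [wmu_of_not hp]; simp

theorem summable_Tq (h : HD H H1) (hl : IsEll q ell) :
    Summable (fun m : O => open Classical in
      if m ≠ 0 ∧ q ∣ m then (beta m : ℂ) * kk H (N m) else 0) := by
  have h1 := (summable_F2 h hl).prod_symm
  have h2 := h1.prod
  refine h2.congr (fun m => ?_)
  exact tsum_F2_left hl m

theorem Tq_eq (h : HD H H1) (hl : IsEll q ell) :
    Tq H q = ∑' a : O, (wmu a : ℂ) * ∑' b : O, (open Classical in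
      if b = 0 then 0 else kk H (N (ell a) * N b)) := by
  classical
  have hF := summable_F2 h hl
  have h1 : ∑' p, F2 H ell p = ∑' m : O, ∑' a : O, F2 H ell (a, m) := by
    rw [← (Equiv.prodComm O O).tsum_eq (F2 H ell)]
    exact hF.prod_symm.tsum_prod
  have h2 : ∑' p, G2 H ell p = ∑' a : O, ∑' b : O, G2 H ell (a, b) :=
    (summable_G2 h hl).tsum_prod
  rw [Tq, ← tsum_congr (tsum_F2_left (H := H) hl), ← h1, tsum_F2 hl, h2]
  apply tsum_congr
  intro a
  simp only [G2]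
  rw [tsum_mul_left]

theorem summable_wmu_inv (hl : IsEll q ell) :
    Summable (fun a : O => wmu a * (1 / (N (ell a) : ℝ))) := by
  refine Summable.of_norm_bounded (HB.summable_N_rpow (s := 2) (by norm_num)) (fun a => ?_)
  rw [norm_mul, Real.norm_eq_abs, Real.norm_eq_abs]
  by_cases ha : a = 0
  · subst ha
    rw [wmu_zero, abs_zero, zero_mul]
    positivity
  have hNa : (0 : ℝ) < N a := by exact_mod_cast N_pos ha
  have h5 : (N a : ℝ) ≤ N (ell a) := by exact_mod_cast hl.le a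
  have h6 : |1 / (N (ell a) : ℝ)| ≤ (N a : ℝ)⁻¹ := by
    rw [abs_of_nonneg (by positivity), one_div]
    gcongr
  calc |wmu a| * |1 / (N (ell a) : ℝ)| ≤ (N a : ℝ) ^ (-(1 : ℝ)) * (N a : ℝ)⁻¹ :=
        mul_le_mul (abs_wmu_le a) h6 (abs_nonneg _) (by positivity)
    _ = (N a : ℝ) ^ (-(2 : ℝ)) := by
        rw [← Real.rpow_neg_one, ← Real.rpow_add hNa]; norm_num

end

/-- the constant `∑ N(a)^{-3/2}` -/
noncomputable def cZ : ℝ := ∑' a : O, (N a : ℝ) ^ (-(3 / 2 : ℝ))

theorem cZ_nonneg : 0 ≤ cZ := tsum_nonneg fun a => by positivity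

theorem Tq_asymp {H H1 : ℝ → ℂ} {q : O} {ell : O → O} (h : HD H H1) (hl : IsEll q ell) {A : ℝ}
    (hA : 1 ≤ A) :
    ‖Tq H q - ((2 * Real.pi / Real.sqrt 3 * Dq ell : ℝ) : ℂ) * Lam H‖ ≤
      (12000 * (1 + 2 * Real.log A)) * (2 * nJ0 H + 3 * nJ1 H1) + 6020 * cZ * (nL H / A) := by
  classical
  have h3 := sqrt3_pos
  set S : O → ℂ := fun a => ∑' b : O, (if b = 0 then 0 else kk H (N (ell a) * N b)) with hS
  set M : O → ℂ := fun a => ((2 * Real.pi / (Real.sqrt 3 * N (ell a)) : ℝ) : ℂ) * Lam H with hM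
  set B := 2 * nJ0 H + 3 * nJ1 H1 with hB
  have hB0 : 0 ≤ B := by
    have := nJ0_nonneg (H := H)
    have := nJ1_nonneg (H1 := H1)
    positivity
  have hL0 := nL_nonneg (H := H)
  have hE1 : ∀ a, ‖S a - M a‖ ≤ 3000 * B := fun a => (lattice_kk h (N_ell_pos hl a)).2
  have hE2 : ∀ a, ‖S a - M a‖ ≤ 6020 / N (ell a) * nL H := fun a =>
    lattice_kk_trivial h (N_ell_pos hl a)
  have hT : Tq H q = ∑' a : O, (wmu a : ℂ) * S a := by
    have := Tq_eq h hl
    convert this
  have sM : Summable (fun a : O => (wmu a : ℂ) * M a) := by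
    have h1 := (summable_wmu_inv hl).mul_left (2 * Real.pi / Real.sqrt 3)
    have h2 : Summable (fun a : O => ((2 * Real.pi / Real.sqrt 3 *
      (wmu a * (1 / (N (ell a) : ℝ))) : ℝ) : ℂ)) := by
      exact_mod_cast h1
    refine (h2.mul_right (Lam H)).congr (fun a => ?_)
    rw [hM]
    have e1 : (wmu a : ℂ) * (((2 * Real.pi / (Real.sqrt 3 * N (ell a)) : ℝ) : ℂ) * Lam H) =
        ((wmu a * (2 * Real.pi / (Real.sqrt 3 * N (ell a))) : ℝ) : ℂ) * Lam H := by
      push_cast; ring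
    rw [e1]
    congr 2
    have := N_ell_pos hl a
    field_simp
  have tM : ∑' a : O, (wmu a : ℂ) * M a = ((2 * Real.pi / Real.sqrt 3 * Dq ell : ℝ) : ℂ) * Lam H := by
    rw [Dq, ← tsum_mul_left, Complex.ofReal_tsum, ← tsum_mul_right]
    apply tsum_congr
    intro a
    rw [hM]
    have e1 : (wmu a : ℂ) * (((2 * Real.pi / (Real.sqrt 3 * N (ell a)) : ℝ) : ℂ) * Lam H) =
        ((wmu a * (2 * Real.pi / (Real.sqrt 3 * N (ell a))) : ℝ) : ℂ) * Lam H := by
      push_cast; ring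
    rw [e1]
    congr 2
    have := N_ell_pos hl a
    field_simp
  -- the majorant
  have hA0 : 0 < A := by linarith
  set g1 : O → ℝ := fun a => if a ∈ PB (A ^ 2) then 3000 * B * (N a : ℝ)⁻¹ else 0 with hg1
  set g2 : O → ℝ := fun a => 6020 * (nL H / A) * (N a : ℝ) ^ (-(3 / 2 : ℝ)) with hg2
  have sg1 : HasSum g1 (3000 * B * ∑ a ∈ PB (A ^ 2), (N a : ℝ)⁻¹) := by
    have h1 : ∀ a ∉ PB (A ^ 2), g1 a = 0 := fun a ha => by rw [hg1]; simp only [ha, if_false]
    have h2 : HasSum g1 (∑ a ∈ PB (A ^ 2), g1 a) := hasSum_sum_of_ne_finset_zero h1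
    have h3 : ∑ a ∈ PB (A ^ 2), g1 a = 3000 * B * ∑ a ∈ PB (A ^ 2), (N a : ℝ)⁻¹ := by
      rw [Finset.mul_sum]
      apply Finset.sum_congr rfl
      intro a ha
      rw [hg1]
      simp only [ha, if_true]
    rwa [h3] at h2
  have sg2 : HasSum g2 (6020 * (nL H / A) * cZ) :=
    (HB.summable_N_rpow (s := 3 / 2) (by norm_num)).hasSum.mul_left _
  have hbd : ∀ a, ‖(wmu a : ℂ) * (S a - M a)‖ ≤ g1 a + g2 a := by
    intro a
    have hg2n : 0 ≤ g2 a := by
      rw [hg2]
      positivity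
    have hg1n : 0 ≤ g1 a := by
      rw [hg1]
      dsimp only
      split_ifs <;> positivity
    by_cases hp : Primary a
    · have hNa : (0 : ℝ) < N a := by exact_mod_cast N_pos hp.ne_zero
      rw [norm_mul, Complex.norm_real, Real.norm_eq_abs]
      by_cases hm : a ∈ PB (A ^ 2)
      · have : |wmu a| * ‖S a - M a‖ ≤ (N a : ℝ)⁻¹ * (3000 * B) := by
          have h7 := abs_wmu_le a
          rw [Real.rpow_neg_one] at h7
          exact mul_le_mul h7 (hE1 a) (norm_nonneg _) (by positivity)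
        have e : g1 a = 3000 * B * (N a : ℝ)⁻¹ := by rw [hg1]; simp only [hm, if_true]
        rw [e]
        linarith
      · rw [mem_PB] at hm
        push Not at hm
        have hm' := hm hp
        have h7 := abs_wmu_le a
        have h8 : ‖S a - M a‖ ≤ 6020 / N a * nL H := by
          refine (hE2 a).trans ?_
          have h5 : (N a : ℝ) ≤ N (ell a) := by exact_mod_cast hl.le a
          gcongr
        have h9 : |wmu a| * ‖S a - M a‖ ≤ (N a : ℝ) ^ (-(1 : ℝ)) * (6020 / N a * nL H) :=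
          mul_le_mul h7 h8 (norm_nonneg _) (by positivity)
        have h10 : (N a : ℝ) ^ (-(1 / 2 : ℝ)) ≤ A⁻¹ := by
          have h11 : (N a : ℝ) ^ (-(1 / 2 : ℝ)) ≤ (A ^ 2) ^ (-(1 / 2 : ℝ)) :=
            Real.rpow_le_rpow_of_nonpos (by positivity) hm'.le (by norm_num)
          have h12 : (A ^ 2) ^ (-(1 / 2 : ℝ)) = A⁻¹ := by
            rw [← Real.rpow_natCast A 2, ← Real.rpow_mul hA0.le]
            norm_num
            rw [Real.rpow_neg_one]
          rwa [h12] at h11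
        have h13 : (N a : ℝ) ^ (-(1 : ℝ)) * (6020 / N a * nL H) =
            6020 * nL H * ((N a : ℝ) ^ (-(1 / 2 : ℝ)) * (N a : ℝ) ^ (-(3 / 2 : ℝ))) := by
          rw [← Real.rpow_add hNa, show (-(1 / 2 : ℝ)) + (-(3 / 2 : ℝ)) = -((2 : ℕ) : ℝ) by norm_num,
            Real.rpow_neg_one, Real.rpow_neg hNa.le, Real.rpow_natCast]
          field_simp
        have h14 : 6020 * nL H * ((N a : ℝ) ^ (-(1 / 2 : ℝ)) * (N a : ℝ) ^ (-(3 / 2 : ℝ))) ≤
            g2 a := by
          rw [hg2]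
          dsimp only
          calc 6020 * nL H * ((N a : ℝ) ^ (-(1 / 2 : ℝ)) * (N a : ℝ) ^ (-(3 / 2 : ℝ)))
              ≤ 6020 * nL H * (A⁻¹ * (N a : ℝ) ^ (-(3 / 2 : ℝ))) := by gcongr
            _ = _ := by ring
        linarith
    · rw [wmu_of_not hp]
      simp only [Complex.ofReal_zero, zero_mul, norm_zero]
      linarith
  have hsum := sg1.add sg2
  have hsE : Summable (fun a : O => (wmu a : ℂ) * (S a - M a)) :=
    Summable.of_norm_bounded hsum.summable hbd
  have hTM : Tq H q - ((2 * Real.pi / Real.sqrt 3 * Dq ell : ℝ) : ℂ) * Lam H =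
      ∑' a : O, (wmu a : ℂ) * (S a - M a) := by
    have sS : Summable (fun a : O => (wmu a : ℂ) * S a) := by
      refine (hsE.add sM).congr (fun a => ?_)
      ring
    rw [hT, ← tM, ← sS.tsum_sub sM]
    apply tsum_congr
    intro a
    ring
  rw [hTM]
  refine (tsum_of_norm_bounded hsum hbd).trans ?_
  have hlog : ∑ a ∈ PB (A ^ 2), (N a : ℝ)⁻¹ ≤ 4 * (1 + 2 * Real.log A) := by
    have := sum_inv_PB_le (X := A ^ 2) (by nlinarith)
    rwa [Real.log_pow] at this
  have : 3000 * B * ∑ a ∈ PB (A ^ 2), (N a : ℝ)⁻¹ ≤ 3000 * B * (4 * (1 + 2 * Real.log A)) := by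
    gcongr
  calc 3000 * B * ∑ a ∈ PB (A ^ 2), (N a : ℝ)⁻¹ + 6020 * (nL H / A) * cZ
      ≤ 3000 * B * (4 * (1 + 2 * Real.log A)) + 6020 * (nL H / A) * cZ := by linarith
    _ = _ := by ring

end Vale.Agent.P006.GRAM
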