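import Vale.Agent.P006.CR.Basic
import Mathlib.MeasureTheory.Measure.Lebesgue.Complex
import Mathlib.MeasureTheory.Measure.Lebesgue.VolumeOfBalls
import Mathlib.MeasureTheory.Integral.Bochner.Set
import Mathlib.MeasureTheory.Group.Integral
import Mathlib.Tactic

/-!
P006, block GRAM: the fundamental parallelogram of the lattice `t O ⊂ ℂ` (`t > 0` real) and the
tiling formula `∫_ℂ f = ∑_{ν ∈ O} ∫_{cell t} f(t ν + z)`.
-/

namespace Vale.Agent.P006.GRAM

open MeasureTheory Set

/-- first coordinate of `z` in the basis `1, ω` -/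
noncomputable def cx (z : ℂ) : ℝ := z.re + z.im / Real.sqrt 3

/-- second coordinate of `z` in the basis `1, ω` -/
noncomputable def cy (z : ℂ) : ℝ := 2 * z.im / Real.sqrt 3

theorem sqrt3_pos : (0 : ℝ) < Real.sqrt 3 := Real.sqrt_pos.2 (by norm_num)

theorem sqrt3_mul : Real.sqrt 3 * Real.sqrt 3 = 3 := Real.mul_self_sqrt (by norm_num)

theorem cx_add (z w : ℂ) : cx (z + w) = cx z + cx w := by
  simp only [cx, Complex.add_re, Complex.add_im]; ring

theorem cy_add (z w : ℂ) : cy (z + w) = cy z + cy w := by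
  simp only [cy, Complex.add_im]; ring

theorem cx_toC (ν : O) : cx (toC ν) = ν.re := by
  have := sqrt3_pos
  rw [cx, toC_re, toC_im]
  field_simp
  ring

theorem cy_toC (ν : O) : cy (toC ν) = ν.im := by
  have := sqrt3_pos
  rw [cy, toC_im]
  field_simp

theorem cx_smul (t : ℝ) (z : ℂ) : cx (t * z) = t * cx z := by
  simp only [cx, Complex.mul_re, Complex.mul_im, Complex.ofReal_re, Complex.ofReal_im]; ring

theorem cy_smul (t : ℝ) (z : ℂ) : cy (t * z) = t * cy z := by
  simp only [cy, Complex.mul_im, Complex.ofReal_re, Complex.ofReal_im]; ring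

theorem continuous_cx : Continuous cx := by unfold cx; fun_prop

theorem continuous_cy : Continuous cy := by unfold cy; fun_prop

/-- the fundamental parallelogram `{a + b ω : 0 ≤ a, b < t}` of `t O` -/
def cell (t : ℝ) : Set ℂ := {z | (0 ≤ cx z ∧ cx z < t) ∧ (0 ≤ cy z ∧ cy z < t)}

theorem measurableSet_cell (t : ℝ) : MeasurableSet (cell t) := by
  apply MeasurableSet.inter
  · exact (measurableSet_le measurable_const continuous_cx.measurable).inter
      (measurableSet_lt continuous_cx.measurable measurable_const)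
  · exact (measurableSet_le measurable_const continuous_cy.measurable).inter
      (measurableSet_lt continuous_cy.measurable measurable_const)

theorem eq_cx_cy (z : ℂ) : z = (cx z : ℂ) + (cy z : ℂ) * omC := by
  have h := sqrt3_pos
  have h3 := sqrt3_mul
  apply Complex.ext
  · simp only [cx, cy, omC, Complex.add_re, Complex.mul_re, Complex.ofReal_re, Complex.ofReal_im]
    field_simp
    ring
  · simp only [cx, cy, omC, Complex.add_im, Complex.mul_im, Complex.ofReal_re, Complex.ofReal_im]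
    field_simp
    ring

theorem norm_omC : ‖omC‖ = 1 := by
  have h := sqrt3_mul
  rw [← pow_left_inj₀ (norm_nonneg _) zero_le_one (two_ne_zero), Complex.sq_norm,
    Complex.normSq_apply]
  simp only [omC]
  nlinarith

theorem norm_le_of_mem_cell {t : ℝ} {z : ℂ} (hz : z ∈ cell t) : ‖z‖ ≤ 2 * t := by
  obtain ⟨⟨h1, h2⟩, h3, h4⟩ := hz
  rw [eq_cx_cy z]
  calc ‖(cx z : ℂ) + (cy z : ℂ) * omC‖ ≤ ‖(cx z : ℂ)‖ + ‖(cy z : ℂ) * omC‖ := norm_add_le _ _
    _ = |cx z| + |cy z| := by rw [norm_mul, norm_omC, mul_one]; simp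
    _ ≤ 2 * t := by rw [abs_of_nonneg h1, abs_of_nonneg h3]; linarith

/-- the translate of the cell by `t ν` -/
def tile (t : ℝ) (ν : O) : Set ℂ := (fun z => (t : ℂ) * toC ν + z) '' cell t

theorem mem_tile {t : ℝ} {ν : O} {z : ℂ} : z ∈ tile t ν ↔ z - t * toC ν ∈ cell t := by
  constructor
  · rintro ⟨w, hw, rfl⟩; simpa using hw
  · intro h; exact ⟨_, h, by ring⟩

theorem mem_tile_iff {t : ℝ} (ht : 0 < t) {ν : O} {z : ℂ} :
    z ∈ tile t ν ↔ ν.re = ⌊cx z / t⌋ ∧ ν.im = ⌊cy z / t⌋ := by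
  rw [mem_tile, cell, mem_ofPred_eq]
  have e1 : cx (z - t * toC ν) = cx z - t * ν.re := by
    rw [sub_eq_add_neg, cx_add, show -((t : ℂ) * toC ν) = ((-t : ℝ) : ℂ) * toC ν by push_cast; ring,
      cx_smul, cx_toC]; ring
  have e2 : cy (z - t * toC ν) = cy z - t * ν.im := by
    rw [sub_eq_add_neg, cy_add, show -((t : ℂ) * toC ν) = ((-t : ℝ) : ℂ) * toC ν by push_cast; ring,
      cy_smul, cy_toC]; ring
  rw [e1, e2, eq_comm (a := ν.re), eq_comm (a := ν.im), Int.floor_eq_iff, Int.floor_eq_iff]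
  constructor
  · rintro ⟨⟨h1, h2⟩, h3, h4⟩
    refine ⟨⟨?_, ?_⟩, ?_, ?_⟩
    · rw [le_div_iff₀ ht]; linarith
    · rw [div_lt_iff₀ ht]; linarith
    · rw [le_div_iff₀ ht]; linarith
    · rw [div_lt_iff₀ ht]; linarith
  · rintro ⟨⟨h1, h2⟩, h3, h4⟩
    rw [le_div_iff₀ ht] at h1 h3
    rw [div_lt_iff₀ ht] at h2 h4
    refine ⟨⟨?_, ?_⟩, ?_, ?_⟩ <;> linarith

theorem measurableSet_tile (t : ℝ) (ν : O) : MeasurableSet (tile t ν) := by
  have : tile t ν = (fun z => z - t * toC ν) ⁻¹' cell t := by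
    ext z; exact mem_tile
  rw [this]
  exact (measurableSet_cell t).preimage (by fun_prop)

theorem pairwise_disjoint_tile {t : ℝ} (ht : 0 < t) : Pairwise (Function.onFun Disjoint (tile t)) := by
  intro μ ν hne
  rw [Function.onFun, Set.disjoint_left]
  intro z hz hz'
  rw [mem_tile_iff ht] at hz hz'
  exact hne (QuadraticAlgebra.ext (hz.1.trans hz'.1.symm) (hz.2.trans hz'.2.symm))

theorem iUnion_tile {t : ℝ} (ht : 0 < t) : ⋃ ν, tile t ν = univ := by
  ext z
  simp only [mem_iUnion, mem_univ, iff_true]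
  exact ⟨⟨⌊cx z / t⌋, ⌊cy z / t⌋⟩, (mem_tile_iff ht).2 ⟨rfl, rfl⟩⟩

instance : Countable O :=
  Function.Injective.countable (f := fun z : O => (z.re, z.im)) (by
    intro x y h
    simp only [Prod.mk.injEq] at h
    exact QuadraticAlgebra.ext h.1 h.2)

theorem lintegral_eq_tsum_cell {t : ℝ} (ht : 0 < t) (f : ℂ → ENNReal) :
    ∫⁻ z, f z = ∑' ν : O, ∫⁻ z in cell t, f (t * toC ν + z) := by
  rw [← setLIntegral_univ, ← iUnion_tile ht,
    lintegral_iUnion (measurableSet_tile t) (pairwise_disjoint_tile ht)]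
  apply tsum_congr
  intro ν
  have : tile t ν = (fun z => (t : ℂ) * toC ν + z) '' cell t := rfl
  rw [this]
  have hmp := measurePreserving_add_left (volume : Measure ℂ) ((t : ℂ) * toC ν)
  rw [← hmp.setLIntegral_comp_emb (measurableEmbedding_addLeft _)]

theorem integral_eq_tsum_cell {t : ℝ} (ht : 0 < t) {E : Type*} [NormedAddCommGroup E]
    [NormedSpace ℝ E] {f : ℂ → E} (hf : Integrable f) :
    ∫ z, f z = ∑' ν : O, ∫ z in cell t, f (t * toC ν + z) := by
  rw [← setIntegral_univ, ← iUnion_tile ht,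
    integral_iUnion (measurableSet_tile t) (pairwise_disjoint_tile ht) hf.integrableOn]
  apply tsum_congr
  intro ν
  have : tile t ν = (fun z => (t : ℂ) * toC ν + z) '' cell t := rfl
  rw [this]
  have hmp := measurePreserving_add_left (volume : Measure ℂ) ((t : ℂ) * toC ν)
  rw [← hmp.setIntegral_image_emb (measurableEmbedding_addLeft _)]

/-- the linear map `x + i y ↦ x + y ω` -/
noncomputable def LO : ℂ →ₗ[ℝ] ℂ where
  toFun z := (z.re : ℂ) + (z.im : ℂ) * omC
  map_add' x y := by simp; ring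
  map_smul' c x := by simp; ring

theorem det_LO : LinearMap.det LO = Real.sqrt 3 / 2 := by
  rw [← LinearMap.det_toMatrix Complex.basisOneI, Matrix.det_fin_two]
  simp [LinearMap.toMatrix_apply, LO, omC]

theorem volume_cell {t : ℝ} (ht : 0 < t) :
    volume (cell t) = ENNReal.ofReal (t ^ 2 * (Real.sqrt 3 / 2)) := by
  have h3 := sqrt3_pos
  have h1 : cell t = LO '' (Ico 0 t ×ℂ Ico 0 t) := by
    ext z
    simp only [mem_image, Complex.mem_reProdIm]
    constructor
    · rintro ⟨h1, h2⟩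
      exact ⟨⟨cx z, cy z⟩, ⟨h1, h2⟩, (eq_cx_cy z).symm⟩
    · rintro ⟨w, ⟨hw1, hw2⟩, rfl⟩
      have e1 : cx (LO w) = w.re := by
        simp [LO, cx, omC]; field_simp; ring
      have e2 : cy (LO w) = w.im := by
        simp [LO, cy, omC]; field_simp
      refine ⟨?_, ?_⟩
      · rw [e1]; exact hw1
      · rw [e2]; exact hw2
  have h2 : volume (Ico 0 t ×ℂ Ico 0 t) = ENNReal.ofReal (t ^ 2) := by
    rw [← Complex.volume_preserving_equiv_real_prod.symm.measure_preimage_equiv]
    have : (Complex.measurableEquivRealProd.symm) ⁻¹' (Ico 0 t ×ℂ Ico 0 t) = Ico 0 t ×ˢ Ico 0 t := by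
      ext p; simp [Complex.mem_reProdIm]
    rw [this, Measure.volume_eq_prod, Measure.prod_prod, Real.volume_Ico, ← ENNReal.ofReal_mul (by linarith)]
    congr 1; ring
  rw [h1, Measure.addHaar_image_linearMap, det_LO, h2, ← ENNReal.ofReal_mul (by positivity),
    abs_of_nonneg (by positivity)]
  congr 1; ring

end Vale.Agent.P006.GRAM
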