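import Vale.Agent.P006.GRAM.KernSum
import Mathlib.MeasureTheory.Integral.Bochner.ContinuousLinearMap

/-!
P006, block GRAM: the class `CL` of profiles `f`, correlation pairs, and the identity
`∫ f(x) conj F(X/x) dx = ∫_X^∞ H`.
-/

namespace Vale.Agent.P006.GRAM

open MeasureTheory Set Filter Topology

/-- the class of profiles: measurable, `‖f x‖ ≤ C (1+x)^{-4}` on `(0,∞)` -/
structure CL (f : ℝ → ℂ) : Prop where
  meas : Measurable f
  bound : ∃ C : ℝ, 0 ≤ C ∧ ∀ x, 0 < x → ‖f x‖ ≤ C / (1 + x) ^ 4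

/-- `H` is the multiplicative correlation of `f` and `g`, with derivative `H1` -/
structure HPair (f g H H1 : ℝ → ℂ) : Prop where
  corr : ∀ Z, 0 < Z → H Z = ∫ x in Ioi (0 : ℝ), f x * (starRingEnd ℂ) (g (Z / x)) / (x : ℂ)
  hd : HD H H1

/-- `l(f) = ∫ f(x) x^{1/3} dx` -/
noncomputable def lf (f : ℝ → ℂ) : ℂ := ∫ x in Ioi (0 : ℝ), ((x ^ (1 / 3 : ℝ) : ℝ) : ℂ) * f x

/-- `‖f‖² = ∫ |f|² x dx` -/
noncomputable def nrm2 (f : ℝ → ℂ) : ℝ := ∫ x in Ioi (0 : ℝ), x * ‖f x‖ ^ 2

/-- `F(y) = ∫_y^∞ f` -/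
noncomputable def FF (f : ℝ → ℂ) (y : ℝ) : ℂ := ∫ x in Ioi y, f x

theorem FF_eq_KK (f : ℝ → ℂ) : FF f = KK f := rfl

theorem integrableOn_rpow_div {a : ℝ} (ha : -1 < a) (ha3 : a < 3) :
    IntegrableOn (fun x : ℝ => x ^ a / (1 + x) ^ 4) (Ioi 0) := by
  have h1 : IntegrableOn (fun x : ℝ => x ^ a / (1 + x) ^ 4) (Ioc 0 1) := by
    have h2 : IntegrableOn (fun x : ℝ => x ^ a) (Ioc 0 1) := by
      rw [← intervalIntegrable_iff_integrableOn_Ioc_of_le zero_le_one]
      exact intervalIntegral.intervalIntegrable_rpow' ha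
    refine Integrable.mono' h2 ?_ ?_
    · apply ContinuousOn.aestronglyMeasurable _ measurableSet_Ioc
      apply ContinuousOn.div
      · intro x hx
        exact (Real.continuousAt_rpow_const x a (Or.inl hx.1.ne')).continuousWithinAt
      · fun_prop
      · intro x hx
        have := hx.1
        positivity
    · filter_upwards [ae_restrict_mem measurableSet_Ioc] with x hx
      have hx0 := hx.1
      rw [Real.norm_eq_abs, abs_of_nonneg (by positivity)]
      apply div_le_self (by positivity)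
      apply one_le_pow₀
      linarith
  have h3 : IntegrableOn (fun x : ℝ => x ^ a / (1 + x) ^ 4) (Ioi 1) := by
    have h4 : IntegrableOn (fun x : ℝ => x ^ (a - 4)) (Ioi 1) :=
      integrableOn_Ioi_rpow_of_lt (by linarith) one_pos
    refine Integrable.mono' h4 ?_ ?_
    · apply ContinuousOn.aestronglyMeasurable _ measurableSet_Ioi
      apply ContinuousOn.div
      · intro x hx
        have hx0 : 0 < x := lt_trans one_pos hx
        exact (Real.continuousAt_rpow_const x a (Or.inl hx0.ne')).continuousWithinAt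
      · fun_prop
      · intro x hx
        have hx0 : 0 < x := lt_trans one_pos hx
        positivity
    · filter_upwards [ae_restrict_mem measurableSet_Ioi] with x hx
      have hx0 : 0 < x := lt_trans one_pos hx
      rw [Real.norm_eq_abs, abs_of_nonneg (by positivity), Real.rpow_sub hx0,
        show (4 : ℝ) = ((4 : ℕ) : ℝ) by norm_num, Real.rpow_natCast]
      gcongr
      linarith
  rw [← Ioc_union_Ioi_eq_Ioi (zero_le_one (α := ℝ))]
  exact h1.union h3

namespace CL

variable {f g : ℝ → ℂ}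

theorem add (hf : CL f) (hg : CL g) : CL (fun x => f x + g x) := by
  obtain ⟨C, hC0, hC⟩ := hf.bound
  obtain ⟨D, hD0, hD⟩ := hg.bound
  refine ⟨hf.meas.add hg.meas, C + D, by positivity, fun x hx => ?_⟩
  refine (norm_add_le _ _).trans ((add_le_add (hC x hx) (hD x hx)).trans (le_of_eq ?_))
  ring

theorem const_mul (hf : CL f) (a : ℂ) : CL (fun x => a * f x) := by
  obtain ⟨C, hC0, hC⟩ := hf.bound
  refine ⟨hf.meas.const_mul a, ‖a‖ * C, by positivity, fun x hx => ?_⟩
  rw [norm_mul]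
  calc ‖a‖ * ‖f x‖ ≤ ‖a‖ * (C / (1 + x) ^ 4) := by gcongr; exact hC x hx
    _ = _ := by ring

theorem intOn_rpow (hf : CL f) {a : ℝ} (ha : -1 < a) (ha3 : a < 3) :
    IntegrableOn (fun x : ℝ => x ^ a * ‖f x‖) (Ioi 0) := by
  obtain ⟨C, hC0, hC⟩ := hf.bound
  refine Integrable.mono' ((integrableOn_rpow_div ha ha3).const_mul C) ?_ ?_
  · exact ((measurable_id.pow_const a).mul hf.meas.norm).aestronglyMeasurable
  · filter_upwards [ae_restrict_mem measurableSet_Ioi] with x hx
    have hx0 : 0 < x := hx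
    rw [norm_mul, norm_norm, Real.norm_eq_abs, abs_of_nonneg (by positivity)]
    calc x ^ a * ‖f x‖ ≤ x ^ a * (C / (1 + x) ^ 4) := by gcongr; exact hC x hx0
      _ = _ := by ring

theorem i0 (hf : CL f) : IntegrableOn (fun x => ‖f x‖) (Ioi 0) := by
  have := hf.intOn_rpow (a := 0) (by norm_num) (by norm_num)
  simpa using this

theorem i2 (hf : CL f) : IntegrableOn (fun x : ℝ => x ^ (1 / 3 : ℝ) * ‖f x‖) (Ioi 0) :=
  hf.intOn_rpow (by norm_num) (by norm_num)

theorem intOn (hf : CL f) : IntegrableOn f (Ioi 0) :=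
  (integrable_norm_iff hf.meas.aestronglyMeasurable).1 hf.i0

theorem intOn_Ioi (hf : CL f) {y : ℝ} (hy : 0 ≤ y) : IntegrableOn f (Ioi y) :=
  hf.intOn.mono_set (Ioi_subset_Ioi hy)

theorem intOn_sq (hf : CL f) : IntegrableOn (fun x : ℝ => x * ‖f x‖ ^ 2) (Ioi 0) := by
  obtain ⟨C, hC0, hC⟩ := hf.bound
  have h1 := (hf.intOn_rpow (a := 1) (by norm_num) (by norm_num)).const_mul C
  refine Integrable.mono' h1 ?_ ?_
  · exact (measurable_id.mul (hf.meas.norm.pow_const 2)).aestronglyMeasurable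
  · filter_upwards [ae_restrict_mem measurableSet_Ioi] with x hx
    have hx0 : 0 < x := hx
    rw [Real.norm_eq_abs, abs_of_nonneg (by positivity), Real.rpow_one]
    have h2 : ‖f x‖ ≤ C := by
      refine (hC x hx0).trans (div_le_self hC0 (one_le_pow₀ (by linarith)))
    calc x * ‖f x‖ ^ 2 = x * ‖f x‖ * ‖f x‖ := by ring
      _ ≤ x * ‖f x‖ * C := by gcongr
      _ = _ := by ring

end CL

/-- change of variables `y = Z/x` -/
theorem FF_scale (f : ℝ → ℂ) {x : ℝ} (hx : 0 < x) (X : ℝ) :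
    FF f (X / x) = ∫ Z in Ioi X, f (Z / x) / (x : ℂ) := by
  rw [FF]
  have h1 := integral_comp_mul_left_Ioi (fun Z => f Z) X (b := x⁻¹) (by positivity)
  have h2 : (fun Z => f (Z / x) / (x : ℂ)) = fun Z => (x : ℂ)⁻¹ * f (x⁻¹ * Z) := by
    funext Z; rw [div_eq_mul_inv, mul_comm, div_eq_inv_mul]
  rw [h2, integral_const_mul, h1, inv_inv, Complex.real_smul, ← mul_assoc,
    inv_mul_cancel₀ (by exact_mod_cast hx.ne'), one_mul, div_eq_inv_mul]

end Vale.Agent.P006.GRAM
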