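import Vale.Agent.P006.GRAM.Class
import Mathlib.MeasureTheory.Integral.Prod

/-!
P006, block GRAM: identities for the multiplicative correlation
`H Z = ∫ f(x) conj g(Z/x) dx/x`.
-/

namespace Vale.Agent.P006.GRAM

open MeasureTheory Set Filter Topology

theorem integral_div_scale (G : ℝ → ℂ) {x : ℝ} (hx : 0 < x) :
    ∫ Z in Ioi (0 : ℝ), G (Z / x) / (x : ℂ) = ∫ Z in Ioi (0 : ℝ), G Z := by
  have h := FF_scale G hx 0
  rw [zero_div, FF] at h
  exact h.symm

theorem integral_div_scale_real (G : ℝ → ℝ) {x : ℝ} (hx : 0 < x) :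
    ∫ Z in Ioi (0 : ℝ), G (Z / x) / x = ∫ Z in Ioi (0 : ℝ), G Z := by
  have h1 := integral_comp_mul_left_Ioi (fun Z => G Z) 0 (b := x⁻¹) (by positivity)
  have h2 : (fun Z => G (Z / x) / x) = fun Z => x⁻¹ * G (x⁻¹ * Z) := by
    funext Z; rw [div_eq_mul_inv, mul_comm, div_eq_inv_mul]
  rw [h2, integral_const_mul, h1, inv_inv, smul_eq_mul, ← mul_assoc,
    inv_mul_cancel₀ hx.ne', one_mul, mul_zero]

theorem integrable_div_scale_real {G : ℝ → ℝ} (hG : IntegrableOn G (Ioi 0)) {x : ℝ} (hx : 0 < x) :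
    IntegrableOn (fun Z => G (Z / x) / x) (Ioi 0) := by
  have h1 := (integrableOn_Ioi_comp_mul_left_iff (fun Z => G Z) 0
    (show (0 : ℝ) < x⁻¹ by positivity)).2 (by rw [mul_zero]; exact hG)
  refine (h1.const_mul x⁻¹).congr (Eventually.of_forall fun Z => ?_)
  dsimp only
  rw [div_eq_inv_mul, div_eq_inv_mul]

section

variable {f g : ℝ → ℂ}

/-- integrand of the correlation with weight `Z^a` -/
noncomputable def ci (f g : ℝ → ℂ) (a : ℝ) (p : ℝ × ℝ) : ℂ :=
  ((p.2 ^ a : ℝ) : ℂ) * (f p.1 * (starRingEnd ℂ) (g (p.2 / p.1)) / (p.1 : ℂ))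

theorem measurable_ci (hf : CL f) (hg : CL g) (a : ℝ) : Measurable (ci f g a) := by
  have h1 := hf.meas
  have h2 : Measurable fun x => (starRingEnd ℂ) (g x) :=
    Complex.continuous_conj.measurable.comp hg.meas
  have h3 : Measurable fun p : ℝ × ℝ => (starRingEnd ℂ) (g (p.2 / p.1)) :=
    h2.comp (measurable_snd.div measurable_fst)
  unfold ci
  refine Measurable.mul (by fun_prop) (((h1.comp measurable_fst).mul h3).div (by fun_prop))

theorem norm_ci {a x Z : ℝ} (hx : 0 < x) (hZ : 0 < Z) :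
    ‖ci f g a (x, Z)‖ = x ^ a * ‖f x‖ * ((Z / x) ^ a * ‖g (Z / x)‖ / x) := by
  rw [ci]
  dsimp only
  rw [norm_mul, norm_div, norm_mul, RCLike.norm_conj, Complex.norm_real, Complex.norm_real,
    Real.norm_eq_abs, Real.norm_eq_abs, abs_of_pos hx, abs_of_pos (Real.rpow_pos_of_pos hZ a),
    Real.div_rpow hZ.le hx.le]
  have : 0 < x ^ a := Real.rpow_pos_of_pos hx a
  field_simp

theorem integrable_ci (hf : CL f) (hg : CL g) {a : ℝ} (ha : -1 < a) (ha3 : a < 3) :
    Integrable (ci f g a) ((volume.restrict (Ioi 0)).prod (volume.restrict (Ioi 0))) := by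
  rw [integrable_prod_iff (measurable_ci hf hg a).aestronglyMeasurable]
  have hgi := hg.intOn_rpow ha ha3
  constructor
  · filter_upwards [ae_restrict_mem measurableSet_Ioi] with x hx
    have hx0 : 0 < x := hx
    have hmx : AEStronglyMeasurable (fun Z => ci f g a (x, Z)) (volume.restrict (Ioi 0)) :=
      ((measurable_ci hf hg a).comp measurable_prodMk_left).aestronglyMeasurable
    rw [← integrable_norm_iff hmx]
    have h1 := (integrable_div_scale_real hgi hx0).const_mul (x ^ a * ‖f x‖)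
    refine Integrable.congr h1 ?_
    filter_upwards [ae_restrict_mem measurableSet_Ioi] with Z hZ
    rw [norm_ci hx0 hZ]
  · have h1 := (hf.intOn_rpow ha ha3).mul_const (∫ Z in Ioi (0 : ℝ), Z ^ a * ‖g Z‖)
    refine Integrable.congr h1 ?_
    filter_upwards [ae_restrict_mem measurableSet_Ioi] with x hx
    have hx0 : 0 < x := hx
    rw [← integral_div_scale_real (fun Z => Z ^ a * ‖g Z‖) hx0, ← integral_const_mul]
    refine setIntegral_congr_fun measurableSet_Ioi fun Z hZ => ?_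
    exact (norm_ci hx0 hZ).symm

theorem ci_zero (x Z : ℝ) : ci f g 0 (x, Z) = f x * (starRingEnd ℂ) (g (Z / x)) / (x : ℂ) := by
  simp [ci]

theorem norm_FF_le (X : ℝ) : ‖FF g X‖ ≤ Ka g X := norm_integral_le_integral_norm _

end

namespace HPair

variable {f g H H1 : ℝ → ℂ}

/-- `∫ f(x) conj G(X/x) dx = K X` -/
theorem KK_eq (h : HPair f g H H1) (hf : CL f) (hg : CL g) {X : ℝ} (hX : 0 ≤ X) :
    ∫ x in Ioi (0 : ℝ), f x * (starRingEnd ℂ) (FF g (X / x)) = KK H X := by
  have hint := integrable_ci hf hg (a := 0) (by norm_num) (by norm_num)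
  have hint2 : Integrable (ci f g 0)
      ((volume.restrict (Ioi 0)).prod (volume.restrict (Ioi X))) := by
    have h1 : IntegrableOn (ci f g 0) (Ioi 0 ×ˢ Ioi 0) (volume.prod volume) := by
      rw [IntegrableOn, ← Measure.prod_restrict]; exact hint
    have h2 := h1.mono_set (Set.prod_mono (le_refl (Ioi (0 : ℝ))) (Ioi_subset_Ioi hX))
    rw [IntegrableOn, ← Measure.prod_restrict] at h2
    exact h2
  have e1 : KK H X = ∫ Z in Ioi X, ∫ x in Ioi (0 : ℝ), ci f g 0 (x, Z) := by
    rw [KK]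
    refine setIntegral_congr_fun measurableSet_Ioi fun Z hZ => ?_
    have hZ0 : 0 < Z := lt_of_le_of_lt hX hZ
    rw [h.corr Z hZ0]
    refine setIntegral_congr_fun measurableSet_Ioi fun x _ => ?_
    exact (ci_zero x Z).symm
  rw [e1, ← integral_integral_swap (f := fun x Z => ci f g 0 (x, Z)) hint2]
  refine setIntegral_congr_fun measurableSet_Ioi fun x hx => ?_
  have hx0 : 0 < x := hx
  rw [FF_scale g hx0, ← integral_conj, ← integral_const_mul]
  refine setIntegral_congr_fun measurableSet_Ioi fun Z _ => ?_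
  rw [ci_zero, map_div₀, Complex.conj_ofReal, mul_div_assoc]

/-- `∫ Z^{1/3} H = l(f) conj l(g)` -/
theorem Lam_eq (h : HPair f g H H1) (hf : CL f) (hg : CL g) :
    Lam H = lf f * (starRingEnd ℂ) (lf g) := by
  have hint := integrable_ci hf hg (a := 1 / 3) (by norm_num) (by norm_num)
  have e1 : Lam H = ∫ Z in Ioi (0 : ℝ), ∫ x in Ioi (0 : ℝ), ci f g (1 / 3) (x, Z) := by
    rw [Lam]
    refine setIntegral_congr_fun measurableSet_Ioi fun Z hZ => ?_
    rw [h.corr Z hZ, Complex.real_smul, ← integral_const_mul]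
    rfl
  rw [e1, ← integral_integral_swap (f := fun x Z => ci f g (1 / 3) (x, Z)) hint, lf, lf,
    ← integral_mul_const]
  refine setIntegral_congr_fun measurableSet_Ioi fun x hx => ?_
  have hx0 : 0 < x := hx
  rw [← integral_div_scale (fun Z => ((Z ^ (1 / 3 : ℝ) : ℝ) : ℂ) * g Z) hx0, ← integral_conj,
    ← integral_const_mul]
  refine setIntegral_congr_fun measurableSet_Ioi fun Z hZ => ?_
  have hZ0 : 0 < Z := hZ
  rw [ci]
  dsimp only
  rw [Real.div_rpow hZ0.le hx0.le, map_div₀, map_mul, Complex.conj_ofReal, Complex.conj_ofReal]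
  have h1 : ((x ^ (1 / 3 : ℝ) : ℝ) : ℂ) ≠ 0 := by
    exact_mod_cast (Real.rpow_pos_of_pos hx0 _).ne'
  have h2 : (x : ℂ) ≠ 0 := by exact_mod_cast hx0.ne'
  push_cast
  field_simp

end HPair

/-! ### bilinearity -/

theorem HD.add {H H1 K K1 : ℝ → ℂ} (h : HD H H1) (k : HD K K1) :
    HD (fun Z => H Z + K Z) (fun Z => H1 Z + K1 Z) where
  deriv Z hZ := (h.deriv Z hZ).add (k.deriv Z hZ)
  i0 := (h.intH.add k.intH).norm
  i1 := by
    refine Integrable.mono' (h.i1.add k.i1) ?_ ?_
    · exact measurable_id.aestronglyMeasurable.mul (h.meas1.add k.meas1).norm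
    · filter_upwards [ae_restrict_mem measurableSet_Ioi] with Z hZ
      have hZ0 : 0 < Z := hZ
      rw [norm_mul, norm_norm, Real.norm_eq_abs, abs_of_pos hZ0, Pi.add_apply, ← mul_add]
      exact mul_le_mul_of_nonneg_left (norm_add_le _ _) hZ0.le
  i2 := by
    refine Integrable.mono' (h.i2.add k.i2) ?_ ?_
    · exact (measurable_id.pow_const (1 / 3 : ℝ)).aestronglyMeasurable.mul (h.meas.add k.meas).norm
    · filter_upwards [ae_restrict_mem measurableSet_Ioi] with Z hZ
      have hZ0 : 0 < Z := hZ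
      rw [norm_mul, norm_norm, Real.norm_eq_abs, abs_of_nonneg (by positivity), Pi.add_apply,
        ← mul_add]
      exact mul_le_mul_of_nonneg_left (norm_add_le _ _) (by positivity)
  i3 := by
    refine Integrable.mono' (h.i3.add k.i3) ?_ ?_
    · exact (measurable_id.pow_const (4 / 3 : ℝ)).aestronglyMeasurable.mul (h.meas1.add k.meas1).norm
    · filter_upwards [ae_restrict_mem measurableSet_Ioi] with Z hZ
      have hZ0 : 0 < Z := hZ
      rw [norm_mul, norm_norm, Real.norm_eq_abs, abs_of_nonneg (by positivity), Pi.add_apply,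
        ← mul_add]
      exact mul_le_mul_of_nonneg_left (norm_add_le _ _) (by positivity)
  lim := by
    have h1 := h.lim.add k.lim
    rw [add_zero] at h1
    exact h1.congr fun Z => by ring

theorem HD.const_mul {H H1 : ℝ → ℂ} (h : HD H H1) (a : ℂ) :
    HD (fun Z => a * H Z) (fun Z => a * H1 Z) where
  deriv Z hZ := (h.deriv Z hZ).const_mul a
  i0 := (h.intH.const_mul a).norm
  i1 := by
    refine (h.i1.const_mul ‖a‖).congr (Eventually.of_forall fun Z => ?_)
    simp only [norm_mul]; ring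
  i2 := by
    refine (h.i2.const_mul ‖a‖).congr (Eventually.of_forall fun Z => ?_)
    simp only [norm_mul]; ring
  i3 := by
    refine (h.i3.const_mul ‖a‖).congr (Eventually.of_forall fun Z => ?_)
    simp only [norm_mul]; ring
  lim := by
    have h1 := h.lim.const_mul a
    rw [mul_zero] at h1
    exact h1.congr fun Z => by ring

theorem nJ0_add_le {H H1 K K1 : ℝ → ℂ} (h : HD H H1) (k : HD K K1) :
    nJ0 (fun Z => H Z + K Z) ≤ nJ0 H + nJ0 K := by
  rw [nJ0, nJ0, nJ0, ← integral_add h.i0 k.i0]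
  exact setIntegral_mono_on (h.add k).i0 (h.i0.add k.i0) measurableSet_Ioi
    fun Z _ => norm_add_le _ _

theorem nJ1_add_le {H H1 K K1 : ℝ → ℂ} (h : HD H H1) (k : HD K K1) :
    nJ1 (fun Z => H1 Z + K1 Z) ≤ nJ1 H1 + nJ1 K1 := by
  rw [nJ1, nJ1, nJ1, ← integral_add h.i1 k.i1]
  refine setIntegral_mono_on (h.add k).i1 (h.i1.add k.i1) measurableSet_Ioi fun Z hZ => ?_
  have hZ0 : 0 < Z := hZ
  calc Z * ‖H1 Z + K1 Z‖ ≤ Z * (‖H1 Z‖ + ‖K1 Z‖) := by gcongr; exact norm_add_le _ _
    _ = _ := by ring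

theorem nL_add_le {H H1 K K1 : ℝ → ℂ} (h : HD H H1) (k : HD K K1) :
    nL (fun Z => H Z + K Z) ≤ nL H + nL K := by
  rw [nL, nL, nL, ← integral_add h.i2 k.i2]
  refine setIntegral_mono_on (h.add k).i2 (h.i2.add k.i2) measurableSet_Ioi fun Z hZ => ?_
  have hZ0 : 0 < Z := hZ
  calc Z ^ (1 / 3 : ℝ) * ‖H Z + K Z‖ ≤ Z ^ (1 / 3 : ℝ) * (‖H Z‖ + ‖K Z‖) := by
        gcongr; exact norm_add_le _ _
    _ = _ := by ring

theorem nJ0_const_mul (H : ℝ → ℂ) (a : ℂ) : nJ0 (fun Z => a * H Z) = ‖a‖ * nJ0 H := by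
  rw [nJ0, nJ0, ← integral_const_mul]
  simp only [norm_mul]

theorem nJ1_const_mul (H : ℝ → ℂ) (a : ℂ) : nJ1 (fun Z => a * H Z) = ‖a‖ * nJ1 H := by
  rw [nJ1, nJ1, ← integral_const_mul]
  congr 1; funext Z
  rw [norm_mul]; ring

theorem nL_const_mul (H : ℝ → ℂ) (a : ℂ) : nL (fun Z => a * H Z) = ‖a‖ * nL H := by
  rw [nL, nL, ← integral_const_mul]
  congr 1; funext Z
  rw [norm_mul]; ring

theorem integrable_corr {f g : ℝ → ℂ} (hf : CL f) (hg : CL g) {Z : ℝ} (hZ : 0 < Z) :
    IntegrableOn (fun x => f x * (starRingEnd ℂ) (g (Z / x)) / (x : ℂ)) (Ioi 0) := by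
  obtain ⟨C, hC0, hC⟩ := hf.bound
  obtain ⟨D, hD0, hD⟩ := hg.bound
  have hb : ∀ x, 0 < x → ‖f x * (starRingEnd ℂ) (g (Z / x)) / (x : ℂ)‖ ≤
      (C * D / Z) * (x ^ (0 : ℝ) / (1 + x) ^ 4) := by
    intro x hx
    rw [norm_div, norm_mul, RCLike.norm_conj, Complex.norm_real, Real.norm_eq_abs, abs_of_pos hx,
      Real.rpow_zero]
    have hy : 0 < Z / x := by positivity
    have h1 : ‖g (Z / x)‖ / x ≤ D / Z := by
      have h2 : (1 : ℝ) / (1 + Z / x) ^ 4 ≤ x / Z := by
        rw [div_le_div_iff₀ (by positivity) hZ, one_mul]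
        have h3 : 1 + Z / x ≤ (1 + Z / x) ^ 4 := le_self_pow₀ (by linarith) (by norm_num)
        have h4 : x * (1 + Z / x) = x + Z := by field_simp
        nlinarith
      calc ‖g (Z / x)‖ / x ≤ (D / (1 + Z / x) ^ 4) / x := by gcongr; exact hD _ hy
        _ = D * (1 / (1 + Z / x) ^ 4) / x := by ring
        _ ≤ D * (x / Z) / x := by gcongr
        _ = D / Z := by field_simp
    calc ‖f x‖ * ‖g (Z / x)‖ / x = ‖f x‖ * (‖g (Z / x)‖ / x) := by ring
      _ ≤ (C / (1 + x) ^ 4) * (D / Z) := by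
          apply mul_le_mul (hC x hx) h1 (by positivity) (by positivity)
      _ = _ := by ring
  refine Integrable.mono' ((integrableOn_rpow_div (a := 0) (by norm_num) (by norm_num)).const_mul
    (C * D / Z)) ?_ ?_
  · have h2 : Measurable fun x => (starRingEnd ℂ) (g (Z / x)) :=
      Complex.continuous_conj.measurable.comp (hg.meas.comp (measurable_const.div measurable_id))
    exact ((hf.meas.mul h2).div (by fun_prop)).aestronglyMeasurable
  · filter_upwards [ae_restrict_mem measurableSet_Ioi] with x hx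
    exact hb x hx

namespace HPair

variable {f g f' g' H H1 K K1 : ℝ → ℂ}

theorem add_left (h : HPair f g H H1) (k : HPair f' g K K1) (hf : CL f) (hf' : CL f')
    (hg : CL g) : HPair (fun x => f x + f' x) g (fun Z => H Z + K Z) (fun Z => H1 Z + K1 Z) where
  corr Z hZ := by
    rw [h.corr Z hZ, k.corr Z hZ, ← integral_add (integrable_corr hf hg hZ)
      (integrable_corr hf' hg hZ)]
    congr 1; funext x; ring
  hd := h.hd.add k.hd

theorem add_right (h : HPair f g H H1) (k : HPair f g' K K1) (hf : CL f) (hg : CL g)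
    (hg' : CL g') : HPair f (fun x => g x + g' x) (fun Z => H Z + K Z) (fun Z => H1 Z + K1 Z) where
  corr Z hZ := by
    rw [h.corr Z hZ, k.corr Z hZ, ← integral_add (integrable_corr hf hg hZ)
      (integrable_corr hf hg' hZ)]
    congr 1; funext x; rw [map_add]; ring
  hd := h.hd.add k.hd

theorem const_mul_left (h : HPair f g H H1) (a : ℂ) :
    HPair (fun x => a * f x) g (fun Z => a * H Z) (fun Z => a * H1 Z) where
  corr Z hZ := by
    rw [h.corr Z hZ, ← integral_const_mul]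
    congr 1; funext x; ring
  hd := h.hd.const_mul a

theorem const_mul_right (h : HPair f g H H1) (a : ℂ) :
    HPair f (fun x => a * g x) (fun Z => (starRingEnd ℂ) a * H Z)
      (fun Z => (starRingEnd ℂ) a * H1 Z) where
  corr Z hZ := by
    rw [h.corr Z hZ, ← integral_const_mul]
    congr 1; funext x; rw [map_mul]; ring
  hd := h.hd.const_mul _

end HPair

theorem lf_add {f g : ℝ → ℂ} (hf : CL f) (hg : CL g) :
    lf (fun x => f x + g x) = lf f + lf g := by
  have key : ∀ {f : ℝ → ℂ}, CL f → IntegrableOn (fun x : ℝ => ((x ^ (1 / 3 : ℝ) : ℝ) : ℂ) * f x)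
      (Ioi 0) := by
    intro f hf
    have hmx : AEStronglyMeasurable (fun x : ℝ => ((x ^ (1 / 3 : ℝ) : ℝ) : ℂ) * f x)
        (volume.restrict (Ioi 0)) :=
      ((show Measurable fun x : ℝ => ((x ^ (1 / 3 : ℝ) : ℝ) : ℂ) by fun_prop).mul
        hf.meas).aestronglyMeasurable
    rw [IntegrableOn, ← integrable_norm_iff hmx]
    refine hf.i2.congr ?_
    filter_upwards [ae_restrict_mem measurableSet_Ioi] with x hx
    have hx0 : 0 < x := hx
    rw [norm_mul, Complex.norm_real, Real.norm_eq_abs, abs_of_nonneg (by positivity)]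
  rw [lf, lf, lf, ← integral_add (key hf) (key hg)]
  congr 1; funext x; ring

theorem lf_const_mul (f : ℝ → ℂ) (a : ℂ) : lf (fun x => a * f x) = a * lf f := by
  rw [lf, lf, ← integral_const_mul]
  congr 1; funext x; ring

end Vale.Agent.P006.GRAM
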