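import Vale.Agent.P006.GRAM.Asymp

/-!
P006, block GRAM: the three instances `q = 1, lam, lam p` and the values of `Dq`.
-/

namespace Vale.Agent.P006.GRAM

open MeasureTheory Set Filter Topology Vale.Agent.P006 KU
open Vale.Agent.P006.TI (mu)

/-- `q = 1` -/
noncomputable def ell1 (a : O) : O := if a = 0 then 1 else a

/-- `q = lam` -/
noncomputable def ellL (a : O) : O := if a = 0 then 1 else lam * a

open Classical in
/-- `q = lam p` -/
noncomputable def ellLp (p a : O) : O :=
  if a = 0 then 1 else if p ∣ a then lam * a else lam * (p * a)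

theorem isEll_one : IsEll 1 ell1 where
  iff a ha m := by
    rw [ell1, if_neg ha.ne_zero]
    exact ⟨fun h => h.2, fun h => ⟨one_dvd m, h⟩⟩
  ne a := by
    rw [ell1]; split_ifs with h
    · exact one_ne_zero
    · exact h
  le a := by
    rw [ell1]; split_ifs with h
    · simp [h]
    · exact le_rfl

theorem isEll_lam : IsEll lam ellL where
  iff a ha m := by
    rw [ellL, if_neg ha.ne_zero]
    constructor
    · rintro ⟨h1, h2⟩
      exact ha.isCoprime_lam.mul_dvd h1 h2
    · intro h
      exact ⟨(dvd_mul_right _ _).trans h, (dvd_mul_left _ _).trans h⟩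
  ne a := by
    rw [ellL]; split_ifs with h
    · exact one_ne_zero
    · exact mul_ne_zero prime_lam.ne_zero h
  le a := by
    rw [ellL]; split_ifs with h
    · simp [h]
    · rw [N_mul]; exact Nat.le_mul_of_pos_left _ (N_pos prime_lam.ne_zero)

theorem isEll_lam_p {p : O} (hp : Prime p) (hpp : Primary p) : IsEll (lam * p) (ellLp p) where
  iff a ha m := by
    rw [ellLp, if_neg ha.ne_zero]
    split_ifs with hpa
    · constructor
      · rintro ⟨h1, h2⟩
        exact ha.isCoprime_lam.mul_dvd ((dvd_mul_right _ _).trans h1) h2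
      · intro h
        have h1 : lam ∣ m := (dvd_mul_right _ _).trans h
        have h2 : a ∣ m := (dvd_mul_left _ _).trans h
        exact ⟨hpp.isCoprime_lam.mul_dvd h1 (hpa.trans h2), h2⟩
    · have h3 : IsCoprime p a := (hp.irreducible.coprime_iff_not_dvd).2 hpa
      constructor
      · rintro ⟨h1, h2⟩
        have h4 : p * a ∣ m := h3.mul_dvd ((dvd_mul_left _ _).trans h1) h2
        exact (hpp.mul ha).isCoprime_lam.mul_dvd ((dvd_mul_right _ _).trans h1) h4
      · intro h
        have h1 : lam ∣ m := (dvd_mul_right _ _).trans h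
        have h2 : p * a ∣ m := (dvd_mul_left _ _).trans h
        exact ⟨hpp.isCoprime_lam.mul_dvd h1 ((dvd_mul_right _ _).trans h2),
          (dvd_mul_left _ _).trans h2⟩
  ne a := by
    rw [ellLp]; split_ifs with h h'
    · exact one_ne_zero
    · exact mul_ne_zero prime_lam.ne_zero h
    · exact mul_ne_zero prime_lam.ne_zero (mul_ne_zero hp.ne_zero h)
  le a := by
    rw [ellLp]; split_ifs with h h'
    · simp [h]
    · rw [N_mul]; exact Nat.le_mul_of_pos_left _ (N_pos prime_lam.ne_zero)
    · rw [N_mul, N_mul, ← mul_assoc]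
      exact Nat.le_mul_of_pos_left _ (Nat.mul_pos (N_pos prime_lam.ne_zero) (N_pos hp.ne_zero))

/-- `D1 = ∑_a μ(a)/N(a)²` -/
noncomputable def D1 : ℝ := Dq ell1

theorem term_ell1 (a : O) : wmu a * (1 / (N (ell1 a) : ℝ)) = wmu a * (1 / (N a : ℝ)) := by
  by_cases ha : a = 0
  · simp [ha, wmu_zero]
  · rw [ell1, if_neg ha]

theorem summable_x : Summable (fun a : O => wmu a * (1 / (N a : ℝ))) :=
  (summable_wmu_inv isEll_one).congr term_ell1

theorem D1_eq : D1 = ∑' a : O, wmu a * (1 / (N a : ℝ)) := tsum_congr term_ell1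

theorem Dq_lam : Dq ellL = D1 / 3 := by
  rw [Dq, D1_eq, div_eq_mul_inv, ← tsum_mul_right]
  apply tsum_congr
  intro a
  by_cases ha : a = 0
  · simp [ha, wmu_zero]
  · rw [ellL, if_neg ha, N_mul, N_lam]
    push_cast
    have : (N a : ℝ) ≠ 0 := by exact_mod_cast (N_pos ha).ne'
    field_simp

theorem wmu_prime_mul {p a : O} (hp : Prime p) (hpp : Primary p) :
    wmu (p * a) = open Classical in if p ∣ a then 0 else -(wmu a) * (1 / (N p : ℝ)) := by
  classical
  by_cases ha : Primary a
  · have h1 : Primary (p * a) := hpp.mul ha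
    rw [wmu, if_pos h1]
    split_ifs with h
    · have : mu (p * a) = 0 := by
        apply TI.mu_of_not_squarefree
        intro hsq
        obtain ⟨c, rfl⟩ := h
        exact hp.not_isUnit (hsq p ⟨c, by ring⟩)
      rw [this]; simp
    · rw [TI.mu_prime_mul hp h, wmu, if_pos ha, N_mul]
      push_cast
      have h2 : (N a : ℝ) ≠ 0 := by exact_mod_cast (N_pos ha.ne_zero).ne'
      have h3 : (N p : ℝ) ≠ 0 := by exact_mod_cast (N_pos hp.ne_zero).ne'
      field_simp
  · have h1 : ¬ Primary (p * a) := fun h => ha (hpp.of_mul h)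
    rw [wmu_of_not h1, wmu_of_not ha]
    simp

theorem Dq_lam_p {p : O} (hp : Prime p) (hpp : Primary p) :
    Dq (ellLp p) = D1 / 3 / (N p + 1) := by
  classical
  have hN : (0 : ℝ) < N p := by exact_mod_cast N_pos hp.ne_zero
  set x : O → ℝ := fun a => wmu a * (1 / (N a : ℝ)) with hx
  have sx : Summable x := summable_x
  set x0 : O → ℝ := fun a => if p ∣ a then 0 else x a with hx0
  set x1 : O → ℝ := fun a => if p ∣ a then x a else 0 with hx1
  have s0 : Summable x0 := by
    refine Summable.of_norm_bounded sx.norm (fun a => ?_)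
    rw [hx0]; dsimp only
    split_ifs
    · simp
    · exact le_rfl
  have s1 : Summable x1 := by
    refine Summable.of_norm_bounded sx.norm (fun a => ?_)
    rw [hx1]; dsimp only
    split_ifs
    · exact le_rfl
    · simp
  have e01 : ∑' a, x a = ∑' a, x0 a + ∑' a, x1 a := by
    rw [← s0.tsum_add s1]
    apply tsum_congr
    intro a
    rw [hx0, hx1]; dsimp only
    split_ifs <;> simp
  have e1 : ∑' a, x1 a = -(1 / (N p : ℝ) ^ 2) * ∑' a, x0 a := by
    have hinj : Function.Injective (fun a : O => p * a) := mul_right_injective₀ hp.ne_zero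
    rw [← hinj.tsum_eq (f := x1), ← tsum_mul_left]
    · apply tsum_congr
      intro a
      rw [hx1, hx0, hx]
      dsimp only
      rw [if_pos (dvd_mul_right _ _), wmu_prime_mul hp hpp, N_mul]
      split_ifs with h
      · simp
      · push_cast
        by_cases ha : a = 0
        · simp [ha, wmu_zero]
        have h2 : (N a : ℝ) ≠ 0 := by exact_mod_cast (N_pos ha).ne'
        field_simp
    · intro a ha
      rw [Function.mem_support, hx1] at ha
      dsimp only at ha
      have : p ∣ a := by
        by_contra hcon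
        rw [if_neg hcon] at ha
        exact ha rfl
      obtain ⟨b, hb⟩ := this
      exact ⟨b, hb.symm⟩
  have e2 : Dq (ellLp p) = (1 / 3) * ∑' a, x1 a + (1 / (3 * (N p : ℝ))) * ∑' a, x0 a := by
    rw [Dq, ← tsum_mul_left, ← tsum_mul_left, ← (s1.mul_left _).tsum_add (s0.mul_left _)]
    apply tsum_congr
    intro a
    rw [hx1, hx0, hx]
    dsimp only
    by_cases ha : a = 0
    · simp [ha, wmu_zero]
    have h2 : (N a : ℝ) ≠ 0 := by exact_mod_cast (N_pos ha).ne'
    rw [ellLp, if_neg ha]
    split_ifs with h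
    · rw [N_mul, N_lam]; push_cast; field_simp; ring
    · rw [N_mul, N_mul, N_lam]; push_cast; field_simp; ring
  rw [e2, D1_eq, e01, e1]
  have h3 : (N p : ℝ) + 1 ≠ 0 := by positivity
  field_simp
  ring

end Vale.Agent.P006.GRAM
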