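import Vale.Agent.P006.GRAM.Strips

/-!
P006, block GRAM: the statements consumed by blocks FC and R1.
-/

namespace Vale.Agent.P006.GRAM

open MeasureTheory Set Filter Topology Vale.Agent.P006
open Vale.Agent.P006.H9 (H3 muH P3 Ediff area area_pos)

/-- input of block FC: the strip bound for profiles with `l(f) = 0` -/
theorem strip_hyp : ∃ C : ℝ, 0 ≤ C ∧ ∀ f H H1 : ℝ → ℂ, CL f → HPair f f H H1 → lf f = 0 →
    ∀ A0 : ℝ, 1 ≤ A0 → ∀ x : ℝ, 0 < x →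
    ∫⁻ p, ‖FC.FS f p‖ₑ ^ 2 ∂(FC.mB (FC.km (Ioc x (2 * x)))) ≤ ENNReal.ofReal
      (C * (x ^ 3 + x) * (nrm2 f + (1 + Real.log A0) * (nJ0 H + nJ1 H1) + nL H / A0)) := by
  refine ⟨51200 * (area + Real.pi / 3 * cE), ?_, fun f H H1 hf h hl A0 hA0 x hx => ?_⟩
  · have := area_pos
    have := cE_nonneg
    positivity
  · exact strip_FS_le hf h hl hA0 hx

/-- input of block R1: the strip bound of level `p` -/
theorem strip_hyp_p : ∃ C : ℝ, 0 ≤ C ∧ ∀ p : O, Prime p → Primary p →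
    ∀ f H H1 : ℝ → ℂ, CL f → HPair f f H H1 → ∀ A0 : ℝ, 1 ≤ A0 →
    (∫ w in P3, f (1 / w.v) * (starRingEnd ℂ) (Ediff p R1.eta f w) ∂muH).re ≤
      C * (nrm2 f + (1 + Real.log A0) * (nJ0 H + nJ1 H1) + nL H / A0) := by
  refine ⟨area + 2 * Real.pi / 3 * cE, ?_, fun p hp hpp f H H1 hf h A0 hA0 => ?_⟩
  · have := area_pos
    have := cE_nonneg
    positivity
  · exact re_Ediff_le hf h hp hpp hA0

end Vale.Agent.P006.GRAM
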