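import Vale.Agent.P006.GRAM.StripS
import Vale.Agent.P006.R1.Strip13

/-!
P006, block GRAM: the Gram form with its main term, and the strip inequalities with constant `1`
above height `1/3`.
-/

namespace Vale.Agent.P006.GRAM

open MeasureTheory Set Filter Topology Matrix Vale.Agent.P006
open Vale.Agent.P006.H9 (H3 muH P3 box area E Ptop Decay)

/-- the constant of the main term of the Gram form -/
noncomputable def kapG : ℝ := Real.pi / 3 * (2 * Real.pi / Real.sqrt 3 * (D1 / 3))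

section

variable {f H H1 : ℝ → ℂ}

/-- asymptotics of the Gram form -/
theorem gram_asymp (hf : CL f) (h : HPair f f H H1) {A : ℝ} (hA : 1 ≤ A) :
    ‖∫ w in P3, f (1 / w.v) * (starRingEnd ℂ) (E 1 R1.eta f w) ∂muH -
      ((kapG * ‖lf f‖ ^ 2 : ℝ) : ℂ)‖ ≤ (area + Real.pi / 3 * cE) * noise f H H1 A := by
  have h1 := Tq_asymp h.hd isEll_lam hA
  have hL : Lam H = ((‖lf f‖ ^ 2 : ℝ) : ℂ) := by
    rw [h.Lam_eq hf hf, Complex.mul_conj, Complex.normSq_eq_norm_sq]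
  rw [Dq_lam] at h1
  have e : (∫ w in P3, f (1 / w.v) * (starRingEnd ℂ) (E 1 R1.eta f w) ∂muH) -
      ((kapG * ‖lf f‖ ^ 2 : ℝ) : ℂ) = (area : ℂ) * (nrm2 f : ℂ) + (Real.pi / 3 : ℝ) *
        (Tq H lam - ((2 * Real.pi / Real.sqrt 3 * (D1 / 3) : ℝ) : ℂ) * Lam H) := by
    rw [eval_E hf h, hL, kapG]
    push_cast; ring
  rw [e]
  refine (norm_add_le _ _).trans ?_
  rw [norm_mul, norm_mul, Complex.norm_real, Complex.norm_real, Complex.norm_real,
    Real.norm_eq_abs, Real.norm_eq_abs, Real.norm_eq_abs, abs_of_pos H9.area_pos,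
    abs_of_nonneg (nrm2_nonneg f), abs_of_pos (by positivity : (0 : ℝ) < Real.pi / 3)]
  have h2 : ‖Tq H lam - ((2 * Real.pi / Real.sqrt 3 * (D1 / 3) : ℝ) : ℂ) * Lam H‖ ≤
      cE * noise f H H1 A := h1.trans (Err_le f H H1 hA)
  have h3 := nrm2_le_noise f H H1 hA
  have := H9.area_pos
  calc area * nrm2 f + Real.pi / 3 * ‖Tq H lam - ((2 * Real.pi / Real.sqrt 3 * (D1 / 3) : ℝ) : ℂ) * Lam H‖
      ≤ area * noise f H H1 A + Real.pi / 3 * (cE * noise f H H1 A) := by gcongr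
    _ = _ := by ring

/-- upper bound for the Gram form -/
theorem gram_re_le (hf : CL f) (h : HPair f f H H1) {A : ℝ} (hA : 1 ≤ A) :
    (∫ w in P3, f (1 / w.v) * (starRingEnd ℂ) (E 1 R1.eta f w) ∂muH).re ≤
      kapG * ‖lf f‖ ^ 2 + (area + Real.pi / 3 * cE) * noise f H H1 A := by
  have h1 := (Complex.re_le_norm _).trans (gram_asymp hf h hA)
  rw [Complex.sub_re, Complex.ofReal_re] at h1
  linarith

/-- **(GN)** -/
theorem G_N (hf : CL f) (h : HPair f f H H1) {A : ℝ} (hA : 1 ≤ A)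
    (σ : SpecialLinearGroup (Fin 2) O) {v0 : ℝ} (hv0 : 1 / 3 ≤ v0) :
    ∫⁻ w in Ptop v0, ‖E 1 R1.eta f (σ • w)‖ₑ ^ 2 ∂muH ≤ ENNReal.ofReal
      (kapG * ‖lf f‖ ^ 2 + (area + Real.pi / 3 * cE) * noise f H H1 A) := by
  obtain ⟨A', hA'⟩ := hf.decay
  exact (H9.strip_E_one R1.rowChar_eta hf.meas hA' σ hv0).trans
    (ENNReal.ofReal_le_ofReal (gram_re_le hf h hA))

/-- **(G*S)** with constant `1` above height `1/3` -/
theorem G_S_top (hf : CL f) (h : HPair f f H H1) {A : ℝ} (hA : 1 ≤ A)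
    (σ : SpecialLinearGroup (Fin 2) O) {v0 : ℝ} (hv0 : 1 / 3 ≤ v0) :
    ∫⁻ w in Ptop v0, ‖E 1 R1.eta f (KU.Smat O • σ • w) - E 1 R1.eta f (σ • w)‖ₑ ^ 2 ∂muH ≤
      ENNReal.ofReal (2 * ((area + 2 * Real.pi / 3 * cE) * noise f H H1 A)) := by
  obtain ⟨A', hA'⟩ := hf.decay
  refine (H9.strip_E_smul_sub_one R1.rowChar_eta hf.meas hA' R1.chiOf_eta_S σ hv0).trans ?_
  apply ENNReal.ofReal_le_ofReal
  have h1 := re_S_le hf h hA
  linarith

end

end Vale.Agent.P006.GRAM
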