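import Vale.Agent.P006.GRAM.Corr
import Vale.Agent.P006.GRAM.Dq
import Mathlib.MeasureTheory.Integral.DominatedConvergence
import Vale.Agent.P006.H9.Strip

/-!
P006, block GRAM: the sum over `m` in the constant term, integrated against `f`.
-/

namespace Vale.Agent.P006.GRAM

open MeasureTheory Set Filter Topology Vale.Agent.P006 KU

section

variable {f g H H1 : ℝ → ℂ}

/-- the correlation of `|f|` and `|g|` -/
noncomputable def Ha (f g : ℝ → ℂ) (Z : ℝ) : ℂ := ((∫ x in Ioi (0 : ℝ), ‖ci f g 0 (x, Z)‖ : ℝ) : ℂ)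

theorem norm_Ha (Z : ℝ) : ‖Ha f g Z‖ = ∫ x in Ioi (0 : ℝ), ‖ci f g 0 (x, Z)‖ := by
  rw [Ha, Complex.norm_real, Real.norm_eq_abs, abs_of_nonneg (integral_nonneg fun _ => norm_nonneg _)]

theorem Ha_i0 (hf : CL f) (hg : CL g) : IntegrableOn (fun Z => ‖Ha f g Z‖) (Ioi 0) := by
  simp only [norm_Ha]
  exact (integrable_ci hf hg (a := 0) (by norm_num) (by norm_num)).integral_norm_prod_right

theorem Ha_i2 (hf : CL f) (hg : CL g) :
    IntegrableOn (fun Z => Z ^ (1 / 3 : ℝ) * ‖Ha f g Z‖) (Ioi 0) := by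
  have h := (integrable_ci hf hg (a := 1 / 3) (by norm_num) (by norm_num)).integral_norm_prod_right
  refine h.congr ?_
  filter_upwards [ae_restrict_mem measurableSet_Ioi] with Z hZ
  have hZ0 : 0 < Z := hZ
  rw [norm_Ha, ← integral_const_mul]
  refine setIntegral_congr_fun measurableSet_Ioi fun x _ => ?_
  simp only [ci, Real.rpow_zero, Complex.ofReal_one, one_mul]
  rw [norm_mul, Complex.norm_real, Real.norm_eq_abs, abs_of_nonneg (by positivity)]

theorem integrable_ci_X (hf : CL f) (hg : CL g) {X : ℝ} (hX : 0 ≤ X) :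
    Integrable (ci f g 0) ((volume.restrict (Ioi 0)).prod (volume.restrict (Ioi X))) := by
  have hint := integrable_ci hf hg (a := 0) (by norm_num) (by norm_num)
  have h1 : IntegrableOn (ci f g 0) (Ioi 0 ×ˢ Ioi 0) (volume.prod volume) := by
    rw [IntegrableOn, ← Measure.prod_restrict]; exact hint
  have h2 := h1.mono_set (Set.prod_mono (le_refl (Ioi (0 : ℝ))) (Ioi_subset_Ioi hX))
  rw [IntegrableOn, ← Measure.prod_restrict] at h2
  exact h2

theorem conj_FF_eq (f g : ℝ → ℂ) {x : ℝ} (hx : 0 < x) (X : ℝ) :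
    f x * (starRingEnd ℂ) (FF g (X / x)) = ∫ Z in Ioi X, ci f g 0 (x, Z) := by
  rw [FF_scale g hx, ← integral_conj, ← integral_const_mul]
  refine setIntegral_congr_fun measurableSet_Ioi fun Z _ => ?_
  rw [ci_zero, map_div₀, Complex.conj_ofReal, mul_div_assoc]

theorem integrable_fF (hf : CL f) (hg : CL g) {X : ℝ} (hX : 0 ≤ X) :
    IntegrableOn (fun x => f x * (starRingEnd ℂ) (FF g (X / x))) (Ioi 0) := by
  refine (integrable_ci_X hf hg hX).integral_prod_left.congr ?_
  filter_upwards [ae_restrict_mem measurableSet_Ioi] with x hx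
  exact (conj_FF_eq f g hx X).symm

theorem integral_norm_fF_le (hf : CL f) (hg : CL g) {X : ℝ} (hX : 0 ≤ X) :
    ∫ x in Ioi (0 : ℝ), ‖f x * (starRingEnd ℂ) (FF g (X / x))‖ ≤ Ka (Ha f g) X := by
  have hi := integrable_ci_X hf hg hX
  calc ∫ x in Ioi (0 : ℝ), ‖f x * (starRingEnd ℂ) (FF g (X / x))‖
      ≤ ∫ x in Ioi (0 : ℝ), ∫ Z in Ioi X, ‖ci f g 0 (x, Z)‖ := by
        refine setIntegral_mono_on (integrable_fF hf hg hX).norm hi.integral_norm_prod_left
          measurableSet_Ioi fun x hx => ?_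
        rw [conj_FF_eq f g hx X]
        exact norm_integral_le_integral_norm _
    _ = ∫ Z in Ioi X, ∫ x in Ioi (0 : ℝ), ‖ci f g 0 (x, Z)‖ :=
        integral_integral_swap (f := fun x Z => ‖ci f g 0 (x, Z)‖) hi.norm
    _ = _ := by
        rw [Ka]
        refine setIntegral_congr_fun measurableSet_Ioi fun Z _ => ?_
        exact (norm_Ha Z).symm

open Classical in
/-- `∑_{m ≠ 0, q ∣ m} beta m F(N(m)³ v)` -/
noncomputable def CTq (g : ℝ → ℂ) (q : O) (v : ℝ) : ℂ :=
  ∑' m : O, if m ≠ 0 ∧ q ∣ m then (beta m : ℂ) * FF g ((N m : ℝ) ^ 3 * v) else 0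

open Classical in
theorem summable_CTq (hg : CL g) (q : O) {v : ℝ} (hv : 0 < v) :
    Summable fun m : O => if m ≠ 0 ∧ q ∣ m then (beta m : ℂ) * FF g ((N m : ℝ) ^ 3 * v) else 0 := by
  set c : ℝ := v ^ (1 / 3 : ℝ) with hc
  have hc0 : 0 < c := Real.rpow_pos_of_pos hv _
  have hc3 : c ^ 3 = v := by
    rw [hc, ← Real.rpow_natCast, ← Real.rpow_mul hv.le]; norm_num
  have h1 : Summable (fun b : O => if b = 0 then 0 else Ka g ((c * N b) ^ 3)) :=
    summable_of_sum_le (fun b => by split_ifs; exacts [le_rfl, Ka_nonneg _])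
      (sum_Ka_le' hg.i0 hg.i2 hc0)
  refine Summable.of_norm_bounded h1 fun m => ?_
  by_cases hm : m = 0
  · simp [hm]
  rw [if_neg hm, mul_pow, hc3]
  split_ifs
  · rw [norm_mul, Complex.norm_real, Real.norm_eq_abs, abs_of_nonneg (beta_nonneg hm),
      mul_comm v]
    calc beta m * ‖FF g ((N m : ℝ) ^ 3 * v)‖ ≤ 1 * Ka g ((N m : ℝ) ^ 3 * v) :=
          mul_le_mul (beta_le_one hm) (norm_FF_le _) (norm_nonneg _) zero_le_one
      _ = _ := one_mul _
  · rw [norm_zero]; exact Ka_nonneg _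

theorem measurable_FF (hg : Measurable g) : Measurable (FF g) := by
  have h1 : Measurable (Function.uncurry fun y z : ℝ => if y < z then g z else 0) :=
    Measurable.ite (measurableSet_lt measurable_fst measurable_snd) (hg.comp measurable_snd)
      measurable_const
  have h2 := (h1.stronglyMeasurable.integral_prod_right (ν := volume)).measurable
  have e : FF g = fun y => ∫ z, (if y < z then g z else 0) := by
    funext y
    rw [FF, ← integral_indicator measurableSet_Ioi]
    congr 1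
  rw [e]
  exact h2

open Classical in
theorem measurable_CTq (hg : Measurable g) (q : O) : Measurable (CTq g q) := by
  have h := measurable_FF hg
  have : Countable O := H9.countable_O
  refine Measurable.tsum fun m => ?_
  split_ifs
  · exact (h.comp (measurable_id.const_mul _)).const_mul _
  · exact measurable_const

theorem integrable_tsum_of_summable {ι : Type*} [Countable ι] {F : ι → ℝ → ℂ} {μ : Measure ℝ}
    (hm : Measurable fun x => ∑' i, F i x) (hi : ∀ i, Integrable (F i) μ)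
    (hs : Summable fun i => ∫ x, ‖F i x‖ ∂μ) : Integrable (fun x => ∑' i, F i x) μ := by
  refine ⟨hm.aestronglyMeasurable, ?_⟩
  rw [HasFiniteIntegral]
  have h1 : ∫⁻ x, ‖∑' i, F i x‖ₑ ∂μ ≤ ∫⁻ x, ∑' i, ‖F i x‖ₑ ∂μ :=
    lintegral_mono fun x => enorm_tsum_le_tsum_enorm
  refine lt_of_le_of_lt h1 ?_
  rw [lintegral_tsum fun i => (hi i).1.enorm]
  have e : ∀ i, ∫⁻ x, ‖F i x‖ₑ ∂μ = ENNReal.ofReal (∫ x, ‖F i x‖ ∂μ) := by
    intro i
    rw [ofReal_integral_norm_eq_lintegral_enorm (hi i)]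
  simp only [e]
  exact lt_top_iff_ne_top.2 hs.tsum_ofReal_ne_top

/-- terms of the sum in the constant term, multiplied by `f` -/
noncomputable def Fm (f g : ℝ → ℂ) (q m : O) (x : ℝ) : ℂ :=
  open Classical in if m ≠ 0 ∧ q ∣ m then
    (beta m : ℂ) * (f x * (starRingEnd ℂ) (FF g ((N m : ℝ) ^ 3 / x))) else 0

theorem tsum_Fm (f g : ℝ → ℂ) (q : O) (x : ℝ) :
    ∑' m, Fm f g q m x = f x * (starRingEnd ℂ) (CTq g q (1 / x)) := by
  rw [CTq, Complex.conj_tsum, ← tsum_mul_left]
  refine tsum_congr fun m => ?_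
  unfold Fm
  split_ifs
  · rw [map_mul, Complex.conj_ofReal, mul_one_div]; ring
  · simp

theorem integrable_Fm (hf : CL f) (hg : CL g) (q m : O) :
    Integrable (Fm f g q m) (volume.restrict (Ioi 0)) := by
  classical
  by_cases hm : m ≠ 0 ∧ q ∣ m
  · have := (integrable_fF hf hg (X := (N m : ℝ) ^ 3) (by positivity)).const_mul (beta m : ℂ)
    refine this.congr (Eventually.of_forall fun x => ?_)
    simp only [Fm, if_pos hm]
  · have : Fm f g q m = fun _ => 0 := by
      funext x; simp only [Fm, if_neg hm]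
    rw [this]
    exact integrable_zero _ _ _

theorem summable_Fm (hf : CL f) (hg : CL g) (q : O) :
    Summable fun m => ∫ x in Ioi (0 : ℝ), ‖Fm f g q m x‖ := by
  classical
  have h1 : Summable (fun b : O => if b = 0 then 0 else Ka (Ha f g) ((1 * N b) ^ 3)) :=
    summable_of_sum_le (fun b => by split_ifs; exacts [le_rfl, Ka_nonneg _])
      (sum_Ka_le' (Ha_i0 hf hg) (Ha_i2 hf hg) one_pos)
  refine Summable.of_nonneg_of_le (fun m => integral_nonneg fun _ => norm_nonneg _)
    (fun m => ?_) h1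
  by_cases hm : m ≠ 0 ∧ q ∣ m
  · simp only [Fm, if_pos hm, if_neg hm.1, norm_mul (beta m : ℂ), Complex.norm_real,
      Real.norm_eq_abs, abs_of_nonneg (beta_nonneg hm.1), one_mul]
    rw [integral_const_mul]
    calc beta m * ∫ x in Ioi (0 : ℝ), ‖f x * (starRingEnd ℂ) (FF g ((N m : ℝ) ^ 3 / x))‖
        ≤ 1 * Ka (Ha f g) ((N m : ℝ) ^ 3) :=
          mul_le_mul (beta_le_one hm.1) (integral_norm_fF_le hf hg (by positivity))
            (integral_nonneg fun _ => norm_nonneg _) zero_le_one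
      _ = _ := one_mul _
  · simp only [Fm, if_neg hm, norm_zero, integral_zero]
    split_ifs
    · exact le_rfl
    · exact Ka_nonneg _

theorem countable_O' : Countable O := H9.countable_O

/-- integrability of the sum against `f` -/
theorem integrable_CTq (hf : CL f) (hg : CL g) (q : O) :
    IntegrableOn (fun x => f x * (starRingEnd ℂ) (CTq g q (1 / x))) (Ioi 0) := by
  have := countable_O'
  have hm : Measurable fun x => ∑' m, Fm f g q m x := by
    simp only [tsum_Fm]
    exact hf.meas.mul (Complex.continuous_conj.measurable.comp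
      ((measurable_CTq hg.meas q).comp (measurable_const.div measurable_id)))
  have h := integrable_tsum_of_summable hm (integrable_Fm hf hg q) (summable_Fm hf hg q)
  simp only [tsum_Fm] at h
  exact h

/-- the sum in the constant term, integrated against `f` -/
theorem integral_CTq (hf : CL f) (hg : CL g) (h : HPair f g H H1) (q : O) :
    ∫ x in Ioi (0 : ℝ), f x * (starRingEnd ℂ) (CTq g q (1 / x)) = Tq H q := by
  classical
  have := countable_O'
  have h2 := hasSum_integral_of_summable_integral_norm (integrable_Fm hf hg q)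
    (summable_Fm hf hg q)
  simp only [tsum_Fm] at h2
  rw [← h2.tsum_eq, Tq]
  refine tsum_congr fun m => ?_
  by_cases hm : m ≠ 0 ∧ q ∣ m
  · simp only [Fm, if_pos hm]
    rw [integral_const_mul, h.KK_eq hf hg (by positivity), kk]
  · simp only [Fm, if_neg hm, integral_zero]

/-- substitution `v = 1/x` -/
theorem integral_inv_var (φ : ℝ → ℂ) :
    ∫ v in Ioi (0 : ℝ), (((v ^ 3)⁻¹ : ℝ) : ℂ) * φ v = ∫ x in Ioi (0 : ℝ), (x : ℂ) * φ (1 / x) := by
  rw [← integral_comp_rpow_Ioi (fun v => (((v ^ 3)⁻¹ : ℝ) : ℂ) * φ v) (p := -1) (by norm_num)]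
  refine setIntegral_congr_fun measurableSet_Ioi fun x hx => ?_
  have hx0 : 0 < x := hx
  have e1 : x ^ ((-1 : ℝ) - 1) = (x ^ 2)⁻¹ := by
    rw [show ((-1 : ℝ) - 1) = -((2 : ℕ) : ℝ) by norm_num, Real.rpow_neg hx0.le, Real.rpow_natCast]
  have e2 : x ^ (-1 : ℝ) = 1 / x := by rw [Real.rpow_neg_one, one_div]
  simp only [e1, e2, abs_neg, abs_one, one_mul, Complex.real_smul]
  have h1 : (x : ℂ) ≠ 0 := by exact_mod_cast hx0.ne'
  push_cast
  field_simp

end

end Vale.Agent.P006.GRAM
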