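import Vale.Agent.P006.GRAM.Lattice
import Mathlib.MeasureTheory.Integral.IntegralEqImproper
import Mathlib.Analysis.SpecialFunctions.Integrals.Basic
import Mathlib.Analysis.SpecialFunctions.Pow.Deriv

/-!
P006, block GRAM: the kernel `K X = ∫_X^∞ H` and lattice sums of `K((c N b)³)`.
-/

namespace Vale.Agent.P006.GRAM

open MeasureTheory Set Filter Topology

theorem int_cube {E : Type*} [NormedAddCommGroup E] [NormedSpace ℝ E] (g : ℝ → E) :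
    ∫ t in Ioi (0 : ℝ), (3 * t ^ 2) • g (t ^ 3) = ∫ Z in Ioi (0 : ℝ), g Z := by
  rw [← integral_comp_rpow_Ioi_of_pos (g := g) (p := 3) (by norm_num)]
  apply setIntegral_congr_fun measurableSet_Ioi
  intro t _
  dsimp only
  have e1 : t ^ ((3 : ℝ) - 1) = t ^ 2 := by
    rw [show ((3 : ℝ) - 1) = ((2 : ℕ) : ℝ) by norm_num, Real.rpow_natCast]
  have e2 : t ^ (3 : ℝ) = t ^ 3 := by
    rw [show (3 : ℝ) = ((3 : ℕ) : ℝ) by norm_num, Real.rpow_natCast]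
  rw [e1, e2]

theorem intOn_cube {E : Type*} [NormedAddCommGroup E] [NormedSpace ℝ E] {g : ℝ → E}
    (hg : IntegrableOn g (Ioi 0)) : IntegrableOn (fun t : ℝ => (3 * t ^ 2) • g (t ^ 3)) (Ioi 0) := by
  rw [← integrableOn_Ioi_comp_rpow_iff g (p := 3) (by norm_num)] at hg
  refine hg.congr_fun ?_ measurableSet_Ioi
  intro t _
  dsimp only
  have e1 : t ^ ((3 : ℝ) - 1) = t ^ 2 := by
    rw [show ((3 : ℝ) - 1) = ((2 : ℕ) : ℝ) by norm_num, Real.rpow_natCast]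
  have e2 : t ^ (3 : ℝ) = t ^ 3 := by
    rw [show (3 : ℝ) = ((3 : ℕ) : ℝ) by norm_num, Real.rpow_natCast]
  rw [e1, e2, abs_of_pos (by norm_num : (0 : ℝ) < 3)]

/-- regularity data for the correlation function `H` -/
structure HD (H H1 : ℝ → ℂ) : Prop where
  deriv : ∀ Z, 0 < Z → HasDerivAt H (H1 Z) Z
  i0 : IntegrableOn (fun Z => ‖H Z‖) (Ioi 0)
  i1 : IntegrableOn (fun Z => Z * ‖H1 Z‖) (Ioi 0)
  i2 : IntegrableOn (fun Z => Z ^ (1 / 3 : ℝ) * ‖H Z‖) (Ioi 0)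
  i3 : IntegrableOn (fun Z => Z ^ (4 / 3 : ℝ) * ‖H1 Z‖) (Ioi 0)
  lim : Tendsto (fun Z : ℝ => (Z : ℂ) * H Z) atTop (𝓝 0)

/-- `K X = ∫_X^∞ H` -/
noncomputable def KK (H : ℝ → ℂ) (X : ℝ) : ℂ := ∫ Z in Ioi X, H Z

/-- `∫ |H|` -/
noncomputable def nJ0 (H : ℝ → ℂ) : ℝ := ∫ Z in Ioi (0 : ℝ), ‖H Z‖

/-- `∫ Z |H'|` -/
noncomputable def nJ1 (H1 : ℝ → ℂ) : ℝ := ∫ Z in Ioi (0 : ℝ), Z * ‖H1 Z‖

/-- `∫ Z^{1/3} |H|` -/
noncomputable def nL (H : ℝ → ℂ) : ℝ := ∫ Z in Ioi (0 : ℝ), Z ^ (1 / 3 : ℝ) * ‖H Z‖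

/-- `∫ Z^{1/3} H` -/
noncomputable def Lam (H : ℝ → ℂ) : ℂ := ∫ Z in Ioi (0 : ℝ), (Z ^ (1 / 3 : ℝ) : ℝ) • H Z

section

variable {H H1 : ℝ → ℂ}

theorem nJ0_nonneg : 0 ≤ nJ0 H := integral_nonneg fun _ => norm_nonneg _

theorem nJ1_nonneg : 0 ≤ nJ1 H1 := setIntegral_nonneg measurableSet_Ioi fun _ hZ =>
  mul_nonneg (le_of_lt hZ) (norm_nonneg _)

theorem nL_nonneg : 0 ≤ nL H := setIntegral_nonneg measurableSet_Ioi fun _ hZ =>
  mul_nonneg (Real.rpow_nonneg (le_of_lt hZ) _) (norm_nonneg _)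

namespace HD

variable (h : HD H H1)
include h

theorem contOn : ContinuousOn H (Ioi 0) := fun Z hZ =>
  (h.deriv Z hZ).continuousAt.continuousWithinAt

theorem meas : AEStronglyMeasurable H (volume.restrict (Ioi 0)) :=
  h.contOn.aestronglyMeasurable measurableSet_Ioi

theorem intH : IntegrableOn H (Ioi 0) := (integrable_norm_iff h.meas).1 h.i0

theorem meas1 : AEStronglyMeasurable H1 (volume.restrict (Ioi 0)) := by
  have : AEStronglyMeasurable (_root_.deriv H) (volume.restrict (Ioi 0)) :=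
    (aestronglyMeasurable_deriv H _)
  refine this.congr ?_
  filter_upwards [ae_restrict_mem measurableSet_Ioi] with Z hZ
  exact (h.deriv Z hZ).deriv

theorem intOn_Ioi {X : ℝ} (hX : 0 ≤ X) : IntegrableOn H (Ioi X) :=
  h.intH.mono_set (Ioi_subset_Ioi hX)

theorem intervalInt {a b : ℝ} (ha : 0 ≤ a) (hb : 0 ≤ b) : IntervalIntegrable H volume a b := by
  rw [intervalIntegrable_iff]
  refine h.intH.mono_set ?_
  intro x hx
  rw [uIoc, mem_Ioc] at hx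
  exact lt_of_le_of_lt (le_min ha hb) hx.1

theorem KK_eq {a b : ℝ} (ha : 0 ≤ a) (hb : 0 ≤ b) : KK H b = KK H a - ∫ Z in a..b, H Z := by
  rw [KK, KK, ← intervalIntegral.integral_Ioi_sub_Ioi' (h.intOn_Ioi ha) (h.intOn_Ioi hb)]
  ring

theorem hasDerivAt_KK {X : ℝ} (hX : 0 < X) : HasDerivAt (KK H) (-H X) X := by
  have h1 : HasDerivAt (fun Y => KK H 0 - ∫ Z in (0 : ℝ)..Y, H Z) (-H X) X := by
    have h2 := intervalIntegral.integral_hasDerivAt_right (h.intervalInt le_rfl hX.le)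
      (h.contOn.stronglyMeasurableAtFilter isOpen_Ioi X hX) (h.deriv X hX).continuousAt
    have h3 := h2.const_sub (KK H 0)
    exact h3
  refine h1.congr_of_eventuallyEq ?_
  filter_upwards [eventually_gt_nhds hX] with Y hY
  exact h.KK_eq le_rfl hY.le

theorem tendsto_KK : Tendsto (KK H) atTop (𝓝 0) := by
  have h1 := intervalIntegral_tendsto_integral_Ioi 0 h.intH tendsto_id
  have h2 : Tendsto (fun Y => KK H 0 - ∫ Z in (0 : ℝ)..Y, H Z) atTop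
      (𝓝 (KK H 0 - ∫ Z in Ioi (0 : ℝ), H Z)) := h1.const_sub _
  have e : KK H 0 - ∫ Z in Ioi (0 : ℝ), H Z = 0 := by rw [KK]; ring
  rw [e] at h2
  refine h2.congr' ?_
  filter_upwards [eventually_ge_atTop 0] with Y hY
  exact (h.KK_eq le_rfl hY).symm

end HD

/-- `k t = K (t³)` -/
noncomputable def kk (H : ℝ → ℂ) (t : ℝ) : ℂ := KK H (t ^ 3)

/-- first derivative of `kk` -/
noncomputable def kk1 (H : ℝ → ℂ) (t : ℝ) : ℂ := -(3 * t ^ 2 : ℝ) * H (t ^ 3)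

/-- second derivative of `kk` -/
noncomputable def kk2 (H H1 : ℝ → ℂ) (t : ℝ) : ℂ :=
  -(6 * t : ℝ) * H (t ^ 3) - (9 * t ^ 4 : ℝ) * H1 (t ^ 3)

namespace HD

variable (h : HD H H1)
include h

theorem hasDerivAt_kk {t : ℝ} (ht : 0 < t) : HasDerivAt (kk H) (kk1 H t) t := by
  have h1 : HasDerivAt (KK H) (-H (t ^ 3)) (t ^ 3) := h.hasDerivAt_KK (pow_pos ht 3)
  have h2 : HasDerivAt (KK H ∘ fun x : ℝ => x ^ 3) ((((3 : ℕ) : ℝ) * t ^ (3 - 1)) • -H (t ^ 3)) t :=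
    HasDerivAt.scomp_of_eq t h1 (hasDerivAt_pow 3 t) rfl
  have e : (((3 : ℕ) : ℝ) * t ^ (3 - 1)) • -H (t ^ 3) = kk1 H t := by
    rw [kk1, Complex.real_smul]; push_cast; ring
  rw [e] at h2
  exact h2

theorem hasDerivAt_kk1 {t : ℝ} (ht : 0 < t) : HasDerivAt (kk1 H) (kk2 H H1 t) t := by
  have h1 : HasDerivAt H (H1 (t ^ 3)) (t ^ 3) := h.deriv _ (pow_pos ht 3)
  have h2 : HasDerivAt (H ∘ fun x : ℝ => x ^ 3) ((((3 : ℕ) : ℝ) * t ^ (3 - 1)) • H1 (t ^ 3)) t :=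
    HasDerivAt.scomp_of_eq t h1 (hasDerivAt_pow 3 t) rfl
  have h3 : HasDerivAt (fun t : ℝ => (-(3 * t ^ 2 : ℝ) : ℂ)) (-(6 * t : ℝ) : ℂ) t := by
    have h4 : HasDerivAt (fun t : ℝ => -(3 * t ^ 2)) (-(3 * (((2 : ℕ) : ℝ) * t ^ (2 - 1)))) t :=
      ((hasDerivAt_pow 2 t).const_mul 3).neg
    have h5 := h4.ofReal_comp
    convert h5 using 1
    · funext x; push_cast; ring
    · push_cast; ring
  have h6 := h3.mul h2
  have e : (-(6 * t : ℝ) : ℂ) * (H ∘ fun t => t ^ 3) t +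
      (-(3 * t ^ 2 : ℝ) : ℂ) * ((((3 : ℕ) : ℝ) * t ^ (3 - 1)) • H1 (t ^ 3)) = kk2 H H1 t := by
    rw [kk2, Complex.real_smul, Function.comp_apply]; push_cast; ring
  rw [e] at h6
  exact h6

theorem intOn_a : IntegrableOn (fun t : ℝ => (3 * t ^ 2) * ‖H (t ^ 3)‖) (Ioi 0) := by
  have := intOn_cube h.i0
  simpa only [smul_eq_mul] using this

theorem intOn_b : IntegrableOn (fun t : ℝ => (3 * t ^ 2) * (t ^ 3 * ‖H1 (t ^ 3)‖)) (Ioi 0) := by
  have := intOn_cube h.i1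
  simpa only [smul_eq_mul] using this

theorem intOn_c : IntegrableOn (fun t : ℝ => (3 * t ^ 2) * (t * ‖H (t ^ 3)‖)) (Ioi 0) := by
  have := intOn_cube h.i2
  simp only [smul_eq_mul] at this
  refine this.congr_fun ?_ measurableSet_Ioi
  intro t ht
  dsimp only
  congr 2
  rw [← Real.rpow_natCast t 3, ← Real.rpow_mul (le_of_lt ht)]
  norm_num

theorem intOn_d : IntegrableOn (fun t : ℝ => (3 * t ^ 2) * (t ^ 4 * ‖H1 (t ^ 3)‖)) (Ioi 0) := by
  have := intOn_cube h.i3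
  simp only [smul_eq_mul] at this
  refine this.congr_fun ?_ measurableSet_Ioi
  intro t ht
  dsimp only
  congr 2
  rw [← Real.rpow_natCast t 3, ← Real.rpow_mul (le_of_lt ht), ← Real.rpow_natCast t 4]
  norm_num

theorem meas_kk2 : AEStronglyMeasurable (kk2 H H1) (volume.restrict (Ioi 0)) := by
  have : AEStronglyMeasurable (_root_.deriv (kk1 H)) (volume.restrict (Ioi 0)) :=
    (aestronglyMeasurable_deriv _ _)
  refine this.congr ?_
  filter_upwards [ae_restrict_mem measurableSet_Ioi] with Z hZ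
  exact (h.hasDerivAt_kk1 hZ).deriv

omit h in
theorem norm_kk2_le {t : ℝ} (ht : 0 < t) :
    ‖kk2 H H1 t‖ ≤ 6 * t * ‖H (t ^ 3)‖ + 9 * t ^ 4 * ‖H1 (t ^ 3)‖ := by
  rw [kk2]
  refine (norm_sub_le _ _).trans ?_
  rw [norm_mul, norm_mul, norm_neg, Complex.norm_real, Complex.norm_real, Real.norm_eq_abs,
    Real.norm_eq_abs, abs_of_pos (by positivity), abs_of_pos (by positivity)]

theorem intOn_kk2_1 : IntegrableOn (fun t => t * ‖kk2 H H1 t‖) (Ioi 0) := by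
  have h1 := (h.intOn_a.const_mul 2).add (h.intOn_b.const_mul 3)
  refine Integrable.mono' h1 ?_ ?_
  · exact (continuous_id.aestronglyMeasurable).mul h.meas_kk2.norm
  · filter_upwards [ae_restrict_mem measurableSet_Ioi] with t ht
    have ht' : 0 < t := ht
    rw [norm_mul, norm_norm, Real.norm_eq_abs, abs_of_pos ht']
    calc t * ‖kk2 H H1 t‖ ≤ t * (6 * t * ‖H (t ^ 3)‖ + 9 * t ^ 4 * ‖H1 (t ^ 3)‖) :=
          mul_le_mul_of_nonneg_left (norm_kk2_le ht') ht'.le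
      _ = _ := by simp only [Pi.add_apply]; ring

theorem intOn_kk2_2 : IntegrableOn (fun t => t ^ 2 * ‖kk2 H H1 t‖) (Ioi 0) := by
  have h1 := (h.intOn_c.const_mul 2).add (h.intOn_d.const_mul 3)
  refine Integrable.mono' h1 ?_ ?_
  · exact ((continuous_pow 2).aestronglyMeasurable).mul h.meas_kk2.norm
  · filter_upwards [ae_restrict_mem measurableSet_Ioi] with t ht
    have ht' : 0 < t := ht
    rw [norm_mul, norm_norm, Real.norm_eq_abs, abs_of_pos (by positivity)]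
    calc t ^ 2 * ‖kk2 H H1 t‖ ≤ t ^ 2 * (6 * t * ‖H (t ^ 3)‖ + 9 * t ^ 4 * ‖H1 (t ^ 3)‖) :=
          mul_le_mul_of_nonneg_left (norm_kk2_le ht') (by positivity)
      _ = _ := by simp only [Pi.add_apply]; ring

theorem integral_kk2_le : ∫ t in Ioi (0 : ℝ), t * ‖kk2 H H1 t‖ ≤ 2 * nJ0 H + 3 * nJ1 H1 := by
  have e1 : nJ0 H = ∫ t in Ioi (0 : ℝ), (3 * t ^ 2) * ‖H (t ^ 3)‖ := by
    rw [nJ0, ← int_cube]; rfl
  have e2 : nJ1 H1 = ∫ t in Ioi (0 : ℝ), (3 * t ^ 2) * (t ^ 3 * ‖H1 (t ^ 3)‖) := by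
    rw [nJ1, ← int_cube]; rfl
  rw [e1, e2, ← integral_const_mul, ← integral_const_mul,
    ← integral_add (h.intOn_a.const_mul 2) (h.intOn_b.const_mul 3)]
  apply setIntegral_mono_on h.intOn_kk2_1 ((h.intOn_a.const_mul 2).add (h.intOn_b.const_mul 3))
    measurableSet_Ioi
  intro t ht
  have ht' : 0 < t := ht
  calc t * ‖kk2 H H1 t‖ ≤ t * (6 * t * ‖H (t ^ 3)‖ + 9 * t ^ 4 * ‖H1 (t ^ 3)‖) :=
        mul_le_mul_of_nonneg_left (norm_kk2_le ht') ht'.le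
    _ = _ := by simp only [Pi.add_apply]; ring

end HD

end

end Vale.Agent.P006.GRAM
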