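import Vale.Agent.P006.GRAM.Kern

/-!
P006, block GRAM: lattice sums of `kk (c N b)`.
-/

namespace Vale.Agent.P006.GRAM

open MeasureTheory Set Filter Topology

theorem tendsto_cube : Tendsto (fun t : ℝ => t ^ 3) atTop atTop :=
  tendsto_pow_atTop (by norm_num)

variable {H H1 : ℝ → ℂ}

namespace HD

variable (h : HD H H1)
include h

theorem tendsto_kk : Tendsto (kk H) atTop (𝓝 0) := h.tendsto_KK.comp tendsto_cube

theorem tendsto_kk1 : Tendsto (fun t : ℝ => (t : ℂ) * kk1 H t) atTop (𝓝 0) := by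
  have h1 := (h.lim.comp tendsto_cube).const_mul (-3)
  rw [mul_zero] at h1
  refine h1.congr (fun t => ?_)
  simp only [Function.comp_apply, kk1]
  push_cast
  ring

end HD

/-- counting nonzero elements of small norm -/
theorem sum_count_le (u : Finset O) {x : ℝ} (hx : 0 ≤ x) :
    ∑ b ∈ u, (if b = 0 then 0 else if (N b : ℝ) < x then (1 : ℝ) else 0) ≤ 6010 * x := by
  rcases le_or_gt x 1 with h1 | h1
  · have : ∀ b ∈ u, (if b = 0 then 0 else if (N b : ℝ) < x then (1 : ℝ) else 0) = 0 := by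
      intro b _
      split_ifs with h2 h3
      · rfl
      · have : (1 : ℝ) ≤ N b := by exact_mod_cast N_pos h2
        linarith
      · rfl
    rw [Finset.sum_eq_zero this]
    positivity
  · have hx0 : 0 < x := by linarith
    have h2 : x * ∑ b ∈ u, (if b = 0 then 0 else if (N b : ℝ) < x then (1 : ℝ) else 0) ≤
        rsum (2 * x) := by
      rw [Finset.mul_sum]
      refine le_trans (Finset.sum_le_sum (f := fun b => x * (if b = 0 then 0 else
        if (N b : ℝ) < x then (1 : ℝ) else 0)) (g := fun b : O => if b = 0 then 0 else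
          max (2 * x - N b) 0) ?_) ((summable_rsum (2 * x)).sum_le_tsum u ?_)
      · intro b _
        split_ifs with h2 h3
        · simp
        · rw [mul_one]
          exact le_max_of_le_left (by linarith)
        · simp
      · intro b _
        split_ifs
        · exact le_rfl
        · exact le_max_right _ _
    have h3 := rsum_le (Y := 2 * x) (by linarith)
    have h4 : x * ∑ b ∈ u, (if b = 0 then 0 else if (N b : ℝ) < x then (1 : ℝ) else 0) ≤
        x * (6010 * x) := by nlinarith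
    exact le_of_mul_le_mul_left h4 hx0

/-- the tail of `|H|` -/
noncomputable def Ka (H : ℝ → ℂ) (X : ℝ) : ℝ := ∫ Z in Ioi X, ‖H Z‖

theorem Ka_nonneg (X : ℝ) : 0 ≤ Ka H X := integral_nonneg fun _ => norm_nonneg _

theorem norm_KK_le (X : ℝ) : ‖KK H X‖ ≤ Ka H X := norm_integral_le_integral_norm _

theorem Ka_eq_indicator {X : ℝ} (hX : 0 ≤ X) :
    Ka H X = ∫ Z in Ioi (0 : ℝ), (if X < Z then 1 else 0) * ‖H Z‖ := by
  have hsub : Ioi X ⊆ Ioi (0 : ℝ) := Ioi_subset_Ioi hX
  rw [Ka]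
  rw [setIntegral_eq_of_subset_of_forall_sdiff_eq_zero (f := fun Z => (if X < Z then 1 else 0) * ‖H Z‖)
    measurableSet_Ioi hsub]
  · apply setIntegral_congr_fun measurableSet_Ioi
    intro Z hZ
    dsimp only
    rw [if_pos (mem_Ioi.1 hZ), one_mul]
  · rintro Z ⟨_, hZ2⟩
    have hZ3 : ¬ X < Z := hZ2
    rw [if_neg hZ3, zero_mul]

theorem intOn_ind (h : IntegrableOn (fun Z => ‖H Z‖) (Ioi 0)) (X : ℝ) :
    IntegrableOn (fun Z => (if X < Z then (1 : ℝ) else 0) * ‖H Z‖) (Ioi 0) := by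
  have h1 := h.indicator (measurableSet_Ioi (a := X))
  refine h1.congr (Eventually.of_forall fun Z => ?_)
  simp only [indicator, mem_Ioi]
  split_ifs <;> simp

theorem lt_of_cube_lt {a Z : ℝ} (ha : 0 ≤ a) (h : a ^ 3 < Z) : a < Z ^ (1 / 3 : ℝ) := by
  have h1 : (a ^ 3) ^ (1 / 3 : ℝ) < Z ^ (1 / 3 : ℝ) :=
    Real.rpow_lt_rpow (by positivity) h (by norm_num)
  rwa [← Real.rpow_natCast a 3, ← Real.rpow_mul ha, show ((3 : ℕ) : ℝ) * (1 / 3 : ℝ) = 1 by norm_num,
    Real.rpow_one] at h1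

theorem sum_Ka_le' (h0 : IntegrableOn (fun Z => ‖H Z‖) (Ioi 0))
    (h2 : IntegrableOn (fun Z => Z ^ (1 / 3 : ℝ) * ‖H Z‖) (Ioi 0)) {c : ℝ} (hc : 0 < c)
    (u : Finset O) :
    ∑ b ∈ u, (if b = 0 then 0 else Ka H ((c * N b) ^ 3)) ≤ 6010 / c * nL H := by
  have e : ∀ b : O, (if b = 0 then 0 else Ka H ((c * N b) ^ 3)) =
      ∫ Z in Ioi (0 : ℝ), (if b = 0 then 0 else if (c * N b) ^ 3 < Z then 1 else 0) * ‖H Z‖ := by
    intro b
    by_cases hb : b = 0
    · simp [hb]
    · simp only [hb, if_false]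
      exact Ka_eq_indicator (by positivity)
  simp only [e]
  have hi : ∀ b ∈ u, IntegrableOn (fun Z => (if b = 0 then 0 else
      if (c * N b) ^ 3 < Z then (1 : ℝ) else 0) * ‖H Z‖) (Ioi 0) := by
    intro b _
    by_cases hb : b = 0
    · simp [hb]
    · simp only [hb, if_false]
      exact intOn_ind h0 _
  rw [← integral_finsetSum u hi, nL, ← integral_const_mul]
  apply setIntegral_mono_on (integrable_finsetSum u hi) (h2.const_mul _) measurableSet_Ioi
  intro Z hZ
  rw [← Finset.sum_mul, ← mul_assoc]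
  apply mul_le_mul_of_nonneg_right _ (norm_nonneg _)
  have hZ0 : 0 < Z := hZ
  have h1 := sum_count_le u (x := Z ^ (1 / 3 : ℝ) / c) (by positivity)
  refine le_trans (Finset.sum_le_sum ?_) (h1.trans (le_of_eq (by ring)))
  intro b _
  by_cases hb : b = 0
  · simp [hb]
  · simp only [hb, if_false]
    split_ifs with h2 h3
    · exact le_rfl
    · exfalso
      apply h3
      have := lt_of_cube_lt (by positivity) h2
      rw [lt_div_iff₀ hc]
      linarith
    · exact zero_le_one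
    · exact le_rfl

theorem sum_Ka_le (h : HD H H1) {c : ℝ} (hc : 0 < c) (u : Finset O) :
    ∑ b ∈ u, (if b = 0 then 0 else Ka H ((c * N b) ^ 3)) ≤ 6010 / c * nL H :=
  sum_Ka_le' h.i0 h.i2 hc u

theorem summable_Ka (h : HD H H1) {c : ℝ} (hc : 0 < c) :
    Summable (fun b : O => if b = 0 then 0 else Ka H ((c * N b) ^ 3)) :=
  summable_of_sum_le (fun b => by split_ifs; exacts [le_rfl, Ka_nonneg _]) (sum_Ka_le h hc)

theorem tsum_Ka_le (h : HD H H1) {c : ℝ} (hc : 0 < c) :
    ∑' b : O, (if b = 0 then 0 else Ka H ((c * N b) ^ 3)) ≤ 6010 / c * nL H :=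
  (summable_Ka h hc).tsum_le_of_sum_le (sum_Ka_le h hc)

theorem norm_kk_le (t : ℝ) : ‖kk H t‖ ≤ Ka H (t ^ 3) := norm_KK_le _

theorem integral_kk (h : HD H H1) : ∫ t in Ioi (0 : ℝ), kk H t = Lam H := by
  have hk : ∀ t ∈ Ioi (0 : ℝ), kk H t =
      ∫ Z in Ioi (0 : ℝ), ((if t ^ 3 < Z then 1 else 0 : ℝ)) • H Z := by
    intro t ht
    have ht0 : 0 < t := ht
    have hsub : Ioi (t ^ 3) ⊆ Ioi (0 : ℝ) := Ioi_subset_Ioi (by positivity)
    rw [kk, KK]
    rw [setIntegral_eq_of_subset_of_forall_sdiff_eq_zero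
      (f := fun Z => ((if t ^ 3 < Z then 1 else 0 : ℝ)) • H Z) measurableSet_Ioi hsub]
    · apply setIntegral_congr_fun measurableSet_Ioi
      intro Z hZ
      dsimp only
      rw [if_pos (mem_Ioi.1 hZ), one_smul]
    · rintro Z ⟨_, hZ2⟩
      have hZ3 : ¬ t ^ 3 < Z := hZ2
      rw [if_neg hZ3, zero_smul]
  rw [setIntegral_congr_fun measurableSet_Ioi hk]
  have hmeas : Measurable (fun p : ℝ × ℝ => (if p.1 ^ 3 < p.2 then (1 : ℝ) else 0)) := by
    apply Measurable.ite _ measurable_const measurable_const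
    exact measurableSet_lt (by fun_prop) (by fun_prop)
  have hme : AEStronglyMeasurable (Function.uncurry fun t Z : ℝ =>
      ((if t ^ 3 < Z then 1 else 0 : ℝ)) • H Z)
      ((volume.restrict (Ioi (0 : ℝ))).prod (volume.restrict (Ioi (0 : ℝ)))) :=
    aesm_smul (f := fun p : ℝ × ℝ => (if p.1 ^ 3 < p.2 then (1 : ℝ) else 0))
      (g := fun p : ℝ × ℝ => H p.2) hmeas.aestronglyMeasurable h.meas.comp_snd
  -- the inner integral in `t`
  have hin : ∀ Z ∈ Ioi (0 : ℝ), (IntegrableOn (fun t : ℝ => (if t ^ 3 < Z then (1 : ℝ) else 0)) (Ioi 0)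
      ∧ ∫ t in Ioi (0 : ℝ), (if t ^ 3 < Z then (1 : ℝ) else 0) = Z ^ (1 / 3 : ℝ)) := by
    intro Z hZ
    have hZ0 : 0 < Z := hZ
    have hs : 0 < Z ^ (1 / 3 : ℝ) := Real.rpow_pos_of_pos hZ0 _
    have e1 : ∀ t ∈ Ioi (0 : ℝ), (if t ^ 3 < Z then (1 : ℝ) else 0) =
        indicator (Iio (Z ^ (1 / 3 : ℝ))) (fun _ => (1 : ℝ)) t := by
      intro t ht
      have ht0 : 0 < t := ht
      simp only [indicator, mem_Iio]
      congr 1
      rw [eq_iff_iff]
      constructor
      · exact lt_of_cube_lt ht0.le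
      · intro h1
        have h2 := pow_lt_pow_left₀ h1 ht0.le (n := 3) (by norm_num)
        rwa [← Real.rpow_natCast (Z ^ (1 / 3 : ℝ)) 3, ← Real.rpow_mul hZ0.le,
          show (1 / 3 : ℝ) * ((3 : ℕ) : ℝ) = 1 by norm_num, Real.rpow_one] at h2
    have hfin : volume (Iio (Z ^ (1 / 3 : ℝ)) ∩ Ioi (0 : ℝ)) = ENNReal.ofReal (Z ^ (1 / 3 : ℝ)) := by
      rw [inter_comm, Ioi_inter_Iio, Real.volume_Ioo, sub_zero]
    constructor
    · rw [integrableOn_congr_fun e1 measurableSet_Ioi, IntegrableOn,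
        integrable_indicator_iff measurableSet_Iio]
      refine integrableOn_const ?_
      rw [Measure.restrict_apply measurableSet_Iio, hfin]
      exact ENNReal.ofReal_ne_top
    · rw [setIntegral_congr_fun measurableSet_Ioi e1, integral_indicator measurableSet_Iio,
        setIntegral_const, Measure.real, Measure.restrict_apply measurableSet_Iio, hfin,
        ENNReal.toReal_ofReal hs.le]
      simp
  have hint : Integrable (Function.uncurry fun t Z : ℝ => ((if t ^ 3 < Z then 1 else 0 : ℝ)) • H Z)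
      ((volume.restrict (Ioi (0 : ℝ))).prod (volume.restrict (Ioi (0 : ℝ)))) := by
    rw [integrable_prod_iff' hme]
    constructor
    · filter_upwards [ae_restrict_mem measurableSet_Ioi] with Z hZ
      exact (hin Z hZ).1.smul_const (H Z)
    · refine Integrable.congr h.i2 ?_
      filter_upwards [ae_restrict_mem measurableSet_Ioi] with Z hZ
      have e1 : ∀ t : ℝ, ‖(if t ^ 3 < Z then 1 else 0 : ℝ) • H Z‖ =
          (if t ^ 3 < Z then 1 else 0 : ℝ) * ‖H Z‖ := by
        intro t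
        rw [norm_smul]
        split_ifs <;> simp
      simp only [Function.uncurry_apply_pair, e1]
      rw [integral_mul_const, (hin Z hZ).2]
  rw [integral_integral_swap hint, Lam]
  apply setIntegral_congr_fun measurableSet_Ioi
  intro Z hZ
  dsimp only
  rw [integral_smul_const, (hin Z hZ).2]

/-- lattice lemma for `kk` -/
theorem lattice_kk (h : HD H H1) {c : ℝ} (hc : 0 < c) :
    Summable (fun b : O => if b = 0 then 0 else kk H (c * N b)) ∧
    ‖(∑' b : O, if b = 0 then 0 else kk H (c * N b)) -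
      ((2 * Real.pi / (Real.sqrt 3 * c) : ℝ) : ℂ) * Lam H‖ ≤ 3000 * (2 * nJ0 H + 3 * nJ1 H1) := by
  have key := lattice_lemma (g := kk H) (g1 := kk1 H) (h := kk2 H H1)
    (fun s hs => h.hasDerivAt_kk hs) (fun s hs => h.hasDerivAt_kk1 hs) h.meas_kk2 h.intOn_kk2_1
    h.intOn_kk2_2 h.tendsto_kk h.tendsto_kk1 hc
  rw [integral_kk h] at key
  refine ⟨key.1, key.2.trans ?_⟩
  exact mul_le_mul_of_nonneg_left h.integral_kk2_le (by norm_num)

/-- trivial bound -/
theorem lattice_kk_trivial (h : HD H H1) {c : ℝ} (hc : 0 < c) :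
    ‖(∑' b : O, if b = 0 then 0 else kk H (c * N b)) -
      ((2 * Real.pi / (Real.sqrt 3 * c) : ℝ) : ℂ) * Lam H‖ ≤ 6020 / c * nL H := by
  have h3 := sqrt3_pos
  have hpi := Real.pi_lt_d2
  have hpi0 := Real.pi_pos
  have hs : (1.73 : ℝ) < Real.sqrt 3 := by
    rw [Real.lt_sqrt (by norm_num)]; norm_num
  have h1 : ‖∑' b : O, if b = 0 then 0 else kk H (c * N b)‖ ≤ 6010 / c * nL H := by
    refine le_trans ?_ (tsum_Ka_le h hc)
    apply tsum_of_norm_bounded (summable_Ka h hc).hasSum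
    intro b
    split_ifs
    · simp
    · exact norm_kk_le _
  have h2 : ‖Lam H‖ ≤ nL H := by
    rw [Lam, nL]
    refine (norm_integral_le_integral_norm _).trans (le_of_eq ?_)
    apply setIntegral_congr_fun measurableSet_Ioi
    intro Z hZ
    dsimp only
    rw [norm_smul, Real.norm_eq_abs, abs_of_nonneg (Real.rpow_nonneg (le_of_lt hZ) _)]
  have h4 : ‖((2 * Real.pi / (Real.sqrt 3 * c) : ℝ) : ℂ) * Lam H‖ ≤ 10 / c * nL H := by
    rw [norm_mul, Complex.norm_real, Real.norm_eq_abs, abs_of_pos (by positivity)]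
    apply mul_le_mul _ h2 (norm_nonneg _) (by positivity)
    rw [div_le_div_iff₀ (by positivity) hc]
    nlinarith
  refine (norm_sub_le _ _).trans ((add_le_add h1 h4).trans (le_of_eq ?_))
  ring

end Vale.Agent.P006.GRAM
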