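import Vale.Agent.P006.GRAM.Cell
import Mathlib.MeasureTheory.Constructions.HaarToSphere
import Mathlib.Analysis.Real.Pi.Bounds

/-!
P006, block GRAM: the Riesz mean bound
`|∑_{ν ≠ 0} (Y - N ν)_+ - (π/√3) Y²| ≤ C Y` for all `Y ≥ 0`.
-/

namespace Vale.Agent.P006.GRAM

open MeasureTheory Set

theorem finite_N_le (n : ℕ) : {ν : O | N ν ≤ n}.Finite := by
  have hinj : Set.InjOn (fun z : O => (z.re, z.im)) {ν : O | N ν ≤ n} := by
    intro x _ y _ h
    simp only [Prod.mk.injEq] at h
    exact QuadraticAlgebra.ext h.1 h.2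
  refine Set.Finite.of_finite_image (Set.Finite.subset
    (Set.finite_Icc ((-(2 * n : ℤ) - 1, -(2 * n : ℤ) - 1) : ℤ × ℤ) (2 * n + 1, 2 * n + 1)) ?_) hinj
  rintro _ ⟨z, hz, rfl⟩
  have h1 := N_cast_int' z
  have h2 : (N z : ℤ) ≤ n := by exact_mod_cast hz
  have h3 : 0 ≤ (n : ℤ) := by positivity
  rw [mem_Icc, Prod.le_def, Prod.le_def]
  dsimp only
  refine ⟨⟨?_, ?_⟩, ?_, ?_⟩
  all_goals nlinarith [sq_nonneg (z.re - 2 * z.im), sq_nonneg (2 * z.re - z.im), sq_nonneg (z.re + 1), sq_nonneg (z.im + 1), sq_nonneg (z.re - 1), sq_nonneg (z.im - 1)]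

/-- the truncated paraboloid -/
noncomputable def para (Y : ℝ) (z : ℂ) : ℝ := max (Y - ‖z‖ ^ 2) 0

theorem continuous_para (Y : ℝ) : Continuous (para Y) := by unfold para; fun_prop

theorem para_neg (Y : ℝ) (z : ℂ) : para Y (-z) = para Y z := by simp [para]

theorem para_nonneg (Y : ℝ) (z : ℂ) : 0 ≤ para Y z := le_max_right _ _

theorem para_eq_zero {Y : ℝ} {z : ℂ} (h : Y ≤ ‖z‖ ^ 2) : para Y z = 0 := by
  rw [para, max_eq_right]; linarith

theorem hasCompactSupport_para (Y : ℝ) : HasCompactSupport (para Y) := by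
  apply HasCompactSupport.of_support_subset_isCompact (isCompact_closedBall (0 : ℂ) (|Y| + 1))
  intro z hz
  by_contra hcon
  apply hz
  apply para_eq_zero
  rw [mem_closedBall_zero_iff, not_le] at hcon
  have h1 := le_abs_self Y
  have h2 := abs_nonneg Y
  nlinarith

theorem integrable_para (Y : ℝ) : Integrable (para Y) :=
  (continuous_para Y).integrable_of_hasCompactSupport (hasCompactSupport_para Y)

theorem integral_para {Y : ℝ} (hY : 0 ≤ Y) : ∫ z, para Y z = Real.pi / 2 * Y ^ 2 := by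
  have h := integral_fun_norm_addHaar (volume : Measure ℂ) (fun r : ℝ => max (Y - r ^ 2) 0)
  have h1 : ∫ z, para Y z = ∫ z : ℂ, (fun r : ℝ => max (Y - r ^ 2) 0) ‖z‖ := rfl
  rw [h1, h]
  have h2 : Module.finrank ℝ ℂ = 2 := Complex.finrank_real_complex
  rw [h2]
  have h3 : (volume : Measure ℂ).real (Metric.ball 0 1) = Real.pi := by
    rw [Measure.real, Complex.volume_ball]; simp
  rw [h3]
  have h4 : ∫ y in Ioi (0 : ℝ), y ^ (2 - 1) • max (Y - y ^ 2) 0
      = ∫ y in Ioc (0 : ℝ) (Real.sqrt Y), y * (Y - y ^ 2) := by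
    have hsub : Ioc (0 : ℝ) (Real.sqrt Y) ⊆ Ioi 0 := fun x hx => hx.1
    rw [setIntegral_eq_of_subset_of_forall_sdiff_eq_zero measurableSet_Ioi hsub]
    · apply setIntegral_congr_fun measurableSet_Ioc
      intro y hy
      have hy2 : y ^ 2 ≤ Y := by
        have h5 := pow_le_pow_left₀ hy.1.le hy.2 2
        rwa [Real.sq_sqrt hY] at h5
      simp only [smul_eq_mul]
      rw [max_eq_left (by linarith)]
      ring
    · rintro y ⟨hy1, hy2⟩
      have hy3 : Real.sqrt Y < y := by
        by_contra hcon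
        exact hy2 ⟨hy1, not_lt.1 hcon⟩
      have hy4 : Y ≤ y ^ 2 := by
        have h5 := pow_le_pow_left₀ (Real.sqrt_nonneg Y) hy3.le 2
        rwa [Real.sq_sqrt hY] at h5
      rw [max_eq_right (by linarith)]
      simp
  rw [h4, ← intervalIntegral.integral_of_le (Real.sqrt_nonneg Y)]
  have h5 : ∫ y in (0 : ℝ)..(Real.sqrt Y), y * (Y - y ^ 2) = Y ^ 2 / 4 := by
    have h6 : ∀ y ∈ uIcc (0 : ℝ) (Real.sqrt Y), HasDerivAt (fun y => Y * y ^ 2 / 2 - y ^ 4 / 4)
        (y * (Y - y ^ 2)) y := by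
      intro y _
      have h7 : HasDerivAt (fun y : ℝ => Y * y ^ 2 / 2 - y ^ 4 / 4)
          (Y * (2 * y ^ (2 - 1)) / 2 - 4 * y ^ (4 - 1) / 4) y := by
        exact (((hasDerivAt_pow 2 y).const_mul Y).div_const 2).sub
          ((hasDerivAt_pow 4 y).div_const 4)
      convert h7 using 1
      ring
    rw [intervalIntegral.integral_eq_sub_of_hasDerivAt h6
      (Continuous.intervalIntegrable (by fun_prop) _ _)]
    have h8 : Real.sqrt Y ^ 4 = Y ^ 2 := by
      rw [show (4 : ℕ) = 2 * 2 by norm_num, pow_mul, Real.sq_sqrt hY]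
    rw [h8, Real.sq_sqrt hY]
    ring
  rw [h5]
  simp only [smul_eq_mul, nsmul_eq_mul]
  push_cast
  ring

/-- second difference of the truncated paraboloid -/
theorem para_diff (Y : ℝ) (hY : 1 ≤ Y) (a z : ℂ) (hz : ‖z‖ ≤ 2) :
    |2 * para Y a - para Y (a + z) - para Y (a - z)| ≤
      indicator (Metric.closedBall (0 : ℂ) (Real.sqrt Y + 4)) (fun _ => (8 : ℝ)) (a + z) +
      indicator (Metric.closedBall (0 : ℂ) (Real.sqrt Y + 4) \ Metric.ball (0 : ℂ) (Real.sqrt Y - 4))
        (fun _ => 32 * Real.sqrt Y) (a + z) := by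
  set R := Real.sqrt Y with hR
  have hR2 : R ^ 2 = Y := Real.sq_sqrt (by linarith)
  have hR1 : 1 ≤ R := by rw [hR]; exact Real.one_le_sqrt.2 hY
  have hz0 := norm_nonneg z
  have ha0 := norm_nonneg a
  have t1 : ‖a + z‖ ≤ ‖a‖ + ‖z‖ := norm_add_le _ _
  have t2 : ‖a - z‖ ≤ ‖a‖ + ‖z‖ := norm_sub_le _ _
  have t3 : ‖a‖ ≤ ‖a + z‖ + ‖z‖ := by
    have := norm_sub_le (a + z) z; simpa using this
  have t4 : ‖a‖ ≤ ‖a - z‖ + ‖z‖ := by
    have := norm_add_le (a - z) z; simpa using this
  have hpl : ‖a + z‖ ^ 2 + ‖a - z‖ ^ 2 = 2 * (‖a‖ ^ 2 + ‖z‖ ^ 2) := by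
    have := parallelogram_law_with_norm ℝ a z
    nlinarith
  have nn1 : 0 ≤ indicator (Metric.closedBall (0 : ℂ) (R + 4)) (fun _ => (8 : ℝ)) (a + z) :=
    indicator_nonneg (fun _ _ => by norm_num) _
  have nn2 : 0 ≤ indicator (Metric.closedBall (0 : ℂ) (R + 4) \ Metric.ball (0 : ℂ) (R - 4))
        (fun _ => 32 * R) (a + z) :=
    indicator_nonneg (fun _ _ => by positivity) _
  by_cases hA : ‖a‖ + 2 ≤ R
  · -- inside
    have p1 : para Y a = Y - ‖a‖ ^ 2 := by
      rw [para, max_eq_left]; nlinarith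
    have p2 : para Y (a + z) = Y - ‖a + z‖ ^ 2 := by
      rw [para, max_eq_left]; nlinarith [norm_nonneg (a + z)]
    have p3 : para Y (a - z) = Y - ‖a - z‖ ^ 2 := by
      rw [para, max_eq_left]; nlinarith [norm_nonneg (a - z)]
    have hin : a + z ∈ Metric.closedBall (0 : ℂ) (R + 4) := by
      rw [mem_closedBall_zero_iff]; linarith
    rw [p1, p2, p3, indicator_of_mem hin]
    have : 2 * (Y - ‖a‖ ^ 2) - (Y - ‖a + z‖ ^ 2) - (Y - ‖a - z‖ ^ 2) = 2 * ‖z‖ ^ 2 := by
      linarith
    rw [this, abs_of_nonneg (by positivity)]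
    nlinarith
  · by_cases hB : R + 2 ≤ ‖a‖
    · -- outside
      have p1 : para Y a = 0 := para_eq_zero (by nlinarith)
      have p2 : para Y (a + z) = 0 := para_eq_zero (by nlinarith [norm_nonneg (a + z)])
      have p3 : para Y (a - z) = 0 := para_eq_zero (by nlinarith [norm_nonneg (a - z)])
      rw [p1, p2, p3]
      simp only [mul_zero, sub_zero, abs_zero]
      linarith
    · -- annulus
      rw [not_le] at hA hB
      have hin : a + z ∈ Metric.closedBall (0 : ℂ) (R + 4) \ Metric.ball (0 : ℂ) (R - 4) := by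
        constructor
        · rw [mem_closedBall_zero_iff]; linarith
        · rw [mem_ball_zero_iff, not_lt]; linarith
      rw [indicator_of_mem hin, indicator_of_mem hin.1]
      have q1 : |para Y a - para Y (a + z)| ≤ |‖a‖ ^ 2 - ‖a + z‖ ^ 2| := by
        have := abs_max_sub_max_le_abs (Y - ‖a‖ ^ 2) (Y - ‖a + z‖ ^ 2) 0
        refine this.trans (le_of_eq ?_)
        rw [abs_sub_comm]; congr 1; ring
      have q2 : |para Y a - para Y (a - z)| ≤ |‖a‖ ^ 2 - ‖a - z‖ ^ 2| := by
        have := abs_max_sub_max_le_abs (Y - ‖a‖ ^ 2) (Y - ‖a - z‖ ^ 2) 0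
        refine this.trans (le_of_eq ?_)
        rw [abs_sub_comm]; congr 1; ring
      have q3 : |‖a‖ ^ 2 - ‖a + z‖ ^ 2| ≤ 12 * R + 4 := by
        rw [abs_le]
        constructor <;> nlinarith [norm_nonneg (a + z)]
      have q4 : |‖a‖ ^ 2 - ‖a - z‖ ^ 2| ≤ 12 * R + 4 := by
        rw [abs_le]
        constructor <;> nlinarith [norm_nonneg (a - z)]
      calc |2 * para Y a - para Y (a + z) - para Y (a - z)|
          = |(para Y a - para Y (a + z)) + (para Y a - para Y (a - z))| := by congr 1; ring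
        _ ≤ |para Y a - para Y (a + z)| + |para Y a - para Y (a - z)| := abs_add_le _ _
        _ ≤ 8 + 32 * R := by linarith

/-- the majorant of the second difference -/
noncomputable def maj (R : ℝ) (z : ℂ) : ℝ :=
  indicator (Metric.closedBall (0 : ℂ) (R + 4)) (fun _ => (8 : ℝ)) z +
      indicator (Metric.closedBall (0 : ℂ) (R + 4) \ Metric.ball (0 : ℂ) (R - 4))
        (fun _ => 32 * R) z

theorem measurableSet_ann (R : ℝ) :
    MeasurableSet (Metric.closedBall (0 : ℂ) (R + 4) \ Metric.ball (0 : ℂ) (R - 4)) :=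
  Metric.isClosed_closedBall.measurableSet.diff Metric.isOpen_ball.measurableSet

theorem volume_real_closedBall {r : ℝ} (hr : 0 ≤ r) :
    (volume : Measure ℂ).real (Metric.closedBall 0 r) = Real.pi * r ^ 2 := by
  rw [Measure.real, Complex.volume_closedBall]
  simp [ENNReal.toReal_ofReal hr]
  ring

theorem volume_real_ball {r : ℝ} (hr : 0 ≤ r) :
    (volume : Measure ℂ).real (Metric.ball 0 r) = Real.pi * r ^ 2 := by
  rw [Measure.real, Complex.volume_ball]
  simp [ENNReal.toReal_ofReal hr]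
  ring

theorem integrable_maj (R : ℝ) : Integrable (maj R) := by
  apply Integrable.add
  · rw [integrable_indicator_iff Metric.isClosed_closedBall.measurableSet]
    exact integrableOn_const (by exact (isCompact_closedBall (0 : ℂ) (R + 4)).measure_lt_top.ne)
  · rw [integrable_indicator_iff (measurableSet_ann R)]
    refine IntegrableOn.mono_set (integrableOn_const ?_) sdiff_subset
    exact (isCompact_closedBall (0 : ℂ) (R + 4)).measure_lt_top.ne

theorem integral_maj_le {R : ℝ} (hR : 1 ≤ R) : ∫ z, maj R z ≤ 4700 * R ^ 2 := by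
  have hpi := Real.pi_lt_d2
  have hpi0 := Real.pi_pos
  have hc : volume (Metric.closedBall (0 : ℂ) (R + 4)) ≠ ⊤ :=
    (isCompact_closedBall (0 : ℂ) (R + 4)).measure_lt_top.ne
  have h1 : Integrable (indicator (Metric.closedBall (0 : ℂ) (R + 4)) (fun _ => (8 : ℝ))) := by
    rw [integrable_indicator_iff Metric.isClosed_closedBall.measurableSet]
    exact integrableOn_const hc
  have h2 : Integrable (indicator (Metric.closedBall (0 : ℂ) (R + 4) \ Metric.ball (0 : ℂ) (R - 4))
        (fun _ => 32 * R)) := by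
    rw [integrable_indicator_iff (measurableSet_ann R)]
    exact IntegrableOn.mono_set (integrableOn_const hc) sdiff_subset
  have h3 : ∫ z, maj R z = 8 * (Real.pi * (R + 4) ^ 2) + 32 * R *
      (volume : Measure ℂ).real (Metric.closedBall (0 : ℂ) (R + 4) \ Metric.ball (0 : ℂ) (R - 4)) := by
    unfold maj
    rw [integral_add h1 h2, integral_indicator Metric.isClosed_closedBall.measurableSet,
      integral_indicator (measurableSet_ann R), setIntegral_const, setIntegral_const,
      volume_real_closedBall (by linarith)]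
    simp only [smul_eq_mul]
    ring
  have h4 : (volume : Measure ℂ).real
      (Metric.closedBall (0 : ℂ) (R + 4) \ Metric.ball (0 : ℂ) (R - 4)) ≤ 40 * Real.pi * R := by
    by_cases hR4 : 4 ≤ R
    · have hsub : Metric.ball (0 : ℂ) (R - 4) ⊆ Metric.closedBall (0 : ℂ) (R + 4) :=
        Metric.ball_subset_closedBall.trans (Metric.closedBall_subset_closedBall (by linarith))
      rw [measureReal_sdiff hsub Metric.isOpen_ball.measurableSet hc,
        volume_real_closedBall (by linarith), volume_real_ball (by linarith)]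
      nlinarith
    · have : (volume : Measure ℂ).real
        (Metric.closedBall (0 : ℂ) (R + 4) \ Metric.ball (0 : ℂ) (R - 4)) ≤
          (volume : Measure ℂ).real (Metric.closedBall (0 : ℂ) (R + 4)) :=
        measureReal_mono sdiff_subset hc
      rw [volume_real_closedBall (by linarith)] at this
      refine this.trans ?_
      have : (R + 4) ^ 2 ≤ 40 * R := by nlinarith
      nlinarith
  rw [h3]
  have h5 : 32 * R * (volume : Measure ℂ).real
      (Metric.closedBall (0 : ℂ) (R + 4) \ Metric.ball (0 : ℂ) (R - 4)) ≤ 32 * R * (40 * Real.pi * R) :=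
    mul_le_mul_of_nonneg_left h4 (by positivity)
  have h6 : (R + 4) ^ 2 ≤ 25 * R ^ 2 := by nlinarith
  have h7 : 8 * (Real.pi * (R + 4) ^ 2) ≤ 8 * (Real.pi * (25 * R ^ 2)) := by gcongr
  nlinarith [sq_nonneg R]

theorem norm_toC_sq (ν : O) : ‖toC ν‖ ^ 2 = N ν := (N_eq_sq_norm ν).symm

theorem summable_para (Y : ℝ) : Summable (fun ν : O => para Y (toC ν)) := by
  apply summable_of_hasFiniteSupport
  apply (finite_N_le (Nat.ceil |Y|)).subset
  intro ν hν
  by_contra hcon
  apply hν
  apply para_eq_zero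
  rw [norm_toC_sq]
  simp only [mem_ofPred_eq, not_le] at hcon
  have h1 : |Y| ≤ Nat.ceil |Y| := Nat.le_ceil _
  have h2 : ((Nat.ceil |Y| : ℕ) : ℝ) < N ν := by exact_mod_cast hcon
  linarith [le_abs_self Y]

theorem volume_real_cell_one : (volume : Measure ℂ).real (cell 1) = Real.sqrt 3 / 2 := by
  rw [Measure.real, volume_cell one_pos, ENNReal.toReal_ofReal (by positivity)]
  ring

theorem volume_cell_ne_top {t : ℝ} (ht : 0 < t) : volume (cell t) ≠ ⊤ := by
  rw [volume_cell ht]; exact ENNReal.ofReal_ne_top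

theorem setIntegral_tile (t : ℝ) {E : Type*} [NormedAddCommGroup E]
    [NormedSpace ℝ E] (f : ℂ → E) (ν : O) :
    ∫ z in tile t ν, f z = ∫ z in cell t, f (t * toC ν + z) := by
  have : tile t ν = (fun z => (t : ℂ) * toC ν + z) '' cell t := rfl
  rw [this]
  have hmp := measurePreserving_add_left (volume : Measure ℂ) ((t : ℂ) * toC ν)
  rw [← hmp.setIntegral_image_emb (measurableEmbedding_addLeft _)]

theorem hasSum_integral_cell {t : ℝ} (ht : 0 < t) {E : Type*} [NormedAddCommGroup E]
    [NormedSpace ℝ E] {f : ℂ → E} (hf : Integrable f) :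
    HasSum (fun ν : O => ∫ z in cell t, f (t * toC ν + z)) (∫ z, f z) := by
  have h := hasSum_integral_iUnion (measurableSet_tile t) (pairwise_disjoint_tile ht)
    (f := f) (μ := volume) hf.integrableOn
  rw [iUnion_tile ht, setIntegral_univ] at h
  simpa only [setIntegral_tile] using h

theorem integrableOn_cell_translate {t : ℝ} {E : Type*} [NormedAddCommGroup E]
    {f : ℂ → E} (hf : Integrable f) (a : ℂ) : IntegrableOn (fun z => f (a + z)) (cell t) :=
  (hf.comp_add_left a).integrableOn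

theorem hasSum_congr' {ι : Type*} {f g : ι → ℝ} {a : ℝ} (h : HasSum f a) (hfg : ∀ i, f i = g i) :
    HasSum g a := by
  have : f = g := funext hfg
  rwa [this] at h

theorem para_sum_bound {Y : ℝ} (hY : 1 ≤ Y) :
    |(Real.sqrt 3 / 2) * ∑' ν : O, para Y (toC ν) - Real.pi / 2 * Y ^ 2| ≤ 2350 * Y := by
  set R := Real.sqrt Y with hR
  have hR2 : R ^ 2 = Y := Real.sq_sqrt (by linarith)
  have hR1 : 1 ≤ R := by rw [hR]; exact Real.one_le_sqrt.2 hY
  have hI := integrable_para Y
  have hInt := integral_para (Y := Y) (by linarith)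
  have s1 : HasSum (fun ν : O => ∫ z in cell 1, para Y (toC ν + z)) (Real.pi / 2 * Y ^ 2) := by
    have := hasSum_integral_cell one_pos hI
    simpa only [Complex.ofReal_one, one_mul, hInt] using this
  have s2 : HasSum (fun ν : O => ∫ z in cell 1, para Y (toC ν - z)) (Real.pi / 2 * Y ^ 2) := by
    have h1 : Integrable (fun z => para Y (-z)) := hI.comp_neg
    have h2 := hasSum_integral_cell one_pos h1
    rw [integral_neg_eq_self (para Y), hInt] at h2
    rw [← (Equiv.neg O).hasSum_iff] at h2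
    refine hasSum_congr' h2 (fun ν => ?_)
    simp only [Function.comp_apply, Equiv.neg_apply, map_neg, Complex.ofReal_one, one_mul]
    apply setIntegral_congr_fun (measurableSet_cell 1)
    intro z _
    dsimp only
    congr 1
    ring
  have s3 : HasSum (fun ν : O => ∫ z in cell 1, para Y (toC ν))
      ((Real.sqrt 3 / 2) * ∑' ν : O, para Y (toC ν)) := by
    have h := (summable_para Y).hasSum.mul_left (Real.sqrt 3 / 2)
    have e : ∀ ν : O, ∫ z in cell 1, para Y (toC ν) = Real.sqrt 3 / 2 * para Y (toC ν) := by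
      intro ν
      rw [setIntegral_const, volume_real_cell_one, smul_eq_mul]
    simpa only [e] using h
  have s4 : HasSum (fun ν : O => ∫ z in cell 1,
      (2 * para Y (toC ν) - para Y (toC ν + z) - para Y (toC ν - z)))
      (2 * ((Real.sqrt 3 / 2) * ∑' ν : O, para Y (toC ν) - Real.pi / 2 * Y ^ 2)) := by
    have h := ((s3.mul_left 2).sub s1).sub s2
    have hsub : Integrable (fun z => para Y (-z)) := hI.comp_neg
    have e2 : 2 * ((Real.sqrt 3 / 2) * ∑' ν : O, para Y (toC ν) - Real.pi / 2 * Y ^ 2) =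
      2 * ((Real.sqrt 3 / 2) * ∑' ν : O, para Y (toC ν)) - Real.pi / 2 * Y ^ 2
        - Real.pi / 2 * Y ^ 2 := by ring
    rw [e2]
    refine hasSum_congr' h (fun ν => ?_)
    · symm
      have i0 : IntegrableOn (fun _ : ℂ => 2 * para Y (toC ν)) (cell 1) :=
        integrableOn_const (volume_cell_ne_top one_pos)
      have i1 : IntegrableOn (fun z => para Y (toC ν + z)) (cell 1) :=
        integrableOn_cell_translate hI _
      have i2 : IntegrableOn (fun z => para Y (toC ν - z)) (cell 1) := by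
        have := integrableOn_cell_translate (t := 1) hsub (-toC ν)
        refine this.congr_fun (fun z _ => ?_) (measurableSet_cell 1)
        dsimp only
        congr 1
        ring
      have i01 : IntegrableOn (fun z => 2 * para Y (toC ν) - para Y (toC ν + z)) (cell 1) :=
        i0.sub i1
      rw [integral_sub i01 i2, integral_sub i0 i1, integral_const_mul]
  have s5 : HasSum (fun ν : O => ∫ z in cell 1, maj R (toC ν + z)) (∫ z, maj R z) := by
    have := hasSum_integral_cell one_pos (integrable_maj R)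
    simpa only [Complex.ofReal_one, one_mul] using this
  have s6 : |2 * ((Real.sqrt 3 / 2) * ∑' ν : O, para Y (toC ν) - Real.pi / 2 * Y ^ 2)| ≤
      ∫ z, maj R z := by
    rw [← s4.tsum_eq, ← s5.tsum_eq, ← Real.norm_eq_abs]
    apply tsum_of_norm_bounded s5.summable.hasSum
    intro ν
    apply norm_integral_le_of_norm_le (integrableOn_cell_translate (integrable_maj R) _)
    filter_upwards [ae_restrict_mem (measurableSet_cell 1)] with z hz
    rw [Real.norm_eq_abs]
    have := norm_le_of_mem_cell hz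
    exact para_diff Y hY (toC ν) z (by linarith)
  have h7 := integral_maj_le hR1
  rw [abs_mul, abs_of_pos (by norm_num : (0 : ℝ) < 2)] at s6
  rw [hR2] at h7
  linarith

/-- the Riesz mean of order one of the counting function of the nonzero elements of `O` -/
noncomputable def rsum (Y : ℝ) : ℝ := ∑' ν : O, if ν = 0 then 0 else max (Y - N ν) 0

theorem para_toC (Y : ℝ) (ν : O) : para Y (toC ν) = max (Y - N ν) 0 := by
  rw [para, norm_toC_sq]

theorem rsum_eq {Y : ℝ} (hY : 0 ≤ Y) : rsum Y = ∑' ν : O, para Y (toC ν) - Y := by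
  have h := (summable_para Y).tsum_eq_add_tsum_ite (0 : O)
  rw [h, map_zero]
  have h0 : para Y 0 = Y := by simp [para, hY]
  rw [h0, rsum, add_sub_cancel_left]
  apply tsum_congr
  intro ν
  by_cases hν : ν = 0
  · simp [hν]
  · simp only [hν, if_false, para_toC]

theorem summable_rsum (Y : ℝ) : Summable (fun ν : O => if ν = 0 then 0 else max (Y - N ν) 0) := by
  refine Summable.of_nonneg_of_le (fun ν => ?_) (fun ν => ?_) (summable_para Y)
  · split_ifs
    · exact le_rfl
    · exact le_max_right _ _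
  · split_ifs
    · exact para_nonneg _ _
    · rw [para_toC]

theorem rsum_of_le_one {Y : ℝ} (hY : Y ≤ 1) : rsum Y = 0 := by
  rw [rsum]
  convert tsum_zero with ν
  split_ifs with h
  · rfl
  · have : (1 : ℝ) ≤ N ν := by exact_mod_cast N_pos h
    rw [max_eq_right]; linarith

/-- **Riesz mean bound** -/
theorem riesz_mean {Y : ℝ} (hY : 0 ≤ Y) :
    |rsum Y - Real.pi / Real.sqrt 3 * Y ^ 2| ≤ 3000 * Y := by
  have h3 := sqrt3_pos
  have h33 := sqrt3_mul
  have hpi := Real.pi_lt_d2
  have hpi0 := Real.pi_pos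
  have hs : (1.73 : ℝ) < Real.sqrt 3 := by
    rw [Real.lt_sqrt (by norm_num)]; norm_num
  rcases le_or_gt Y 1 with h1 | h1
  · rw [rsum_of_le_one h1, zero_sub, abs_neg, abs_of_nonneg (by positivity)]
    have : Real.pi / Real.sqrt 3 ≤ 3 := by
      rw [div_le_iff₀ h3]; nlinarith
    have h5 : Y ^ 2 ≤ Y := by nlinarith
    calc Real.pi / Real.sqrt 3 * Y ^ 2 ≤ 3 * Y := by
          apply mul_le_mul this h5 (by positivity) (by norm_num)
      _ ≤ 3000 * Y := by linarith
  · have h := para_sum_bound h1.le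
    rw [rsum_eq hY]
    set T := ∑' ν : O, para Y (toC ν)
    have e1 : T - Y - Real.pi / Real.sqrt 3 * Y ^ 2 =
        (2 / Real.sqrt 3) * ((Real.sqrt 3 / 2) * T - Real.pi / 2 * Y ^ 2) - Y := by
      field_simp
      ring
    rw [e1]
    have h4 : |(2 / Real.sqrt 3) * ((Real.sqrt 3 / 2) * T - Real.pi / 2 * Y ^ 2) - Y| ≤
        (2 / Real.sqrt 3) * |(Real.sqrt 3 / 2) * T - Real.pi / 2 * Y ^ 2| + Y := by
      refine (abs_sub _ _).trans ?_
      rw [abs_mul, abs_of_pos (by positivity : (0 : ℝ) < 2 / Real.sqrt 3), abs_of_nonneg hY]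
    refine h4.trans ?_
    have h5 : 2 / Real.sqrt 3 ≤ 1.17 := by
      rw [div_le_iff₀ h3]; nlinarith
    have h6 : (2 / Real.sqrt 3) * |(Real.sqrt 3 / 2) * T - Real.pi / 2 * Y ^ 2| ≤ 1.17 * (2350 * Y) :=
      mul_le_mul h5 h (abs_nonneg _) (by norm_num)
    linarith

end Vale.Agent.P006.GRAM
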