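import Vale.Agent.P006.GRAM.Strips
import Vale.Agent.P006.KU.CT7

/-!
P006, block GRAM: the strip inequality for `E_f(S w) - E_f(w)`.
-/

namespace Vale.Agent.P006.GRAM

open MeasureTheory Set Filter Topology Matrix Vale.Agent.P006
open Vale.Agent.P006.H9 (H3 muH P3 box area E Ptop Decay)

section

variable {f H H1 : ℝ → ℂ}

theorem CTq_eq_ctS (f : ℝ → ℂ) (q : O) (v : ℝ) : CTq f q v = KU.CT.ctS f v q := rfl

theorem ct_S (hf : CL f) (v : ℝ) (hv : 0 < v) :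
    ∫ z in box, E 1 R1.eta f (KU.Smat O • H3.of z v) =
      (Real.pi / 6 * v : ℝ) * (CTq f 1 v - CTq f lam v) := by
  have h := (KU.CT.ct_E_S hf hv).2
  rw [← CTq_eq_ctS, ← CTq_eq_ctS] at h
  refine Eq.trans h ?_
  push_cast; ring

theorem measurable_E_S (hf : CL f) :
    Measurable fun w : H3 => E 1 R1.eta f (KU.Smat O • w) :=
  (measurable_E_cl R1.rowChar_eta hf 1).comp (measurable_const_smul _)

/-- evaluation of the right-hand side of the strip inequality for `S` -/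
theorem eval_S (hf : CL f) (h : HPair f f H H1) :
    ∫ w in P3, f (1 / w.v) * (starRingEnd ℂ) (E 1 R1.eta f w - E 1 R1.eta f (KU.Smat O • w)) ∂muH =
    (area : ℂ) * (nrm2 f : ℂ) + (Real.pi / 2 : ℝ) * Tq H lam + (-(Real.pi / 6) : ℝ) * Tq H 1 := by
  obtain ⟨M, hM⟩ := bdd_E R1.rowChar_eta hf 1
  have m1 := measurable_E_cl R1.rowChar_eta hf 1
  have m2 := measurable_E_S hf
  have i1 := integrable_bdd R1.rowChar_eta hf m1 hM
  have i2 := integrable_bdd R1.rowChar_eta hf m2 (fun w => hM _)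
  have e1 := strip_ct i1 (ct_one hf)
  have e2 := strip_ct i2 (ct_S hf)
  have e3 := ct_eval hf hf h area (Real.pi / 3) 0 lam lam
  have e4 := ct_eval hf hf h 0 (Real.pi / 6) (-(Real.pi / 6)) 1 lam
  simp only [Complex.ofReal_zero, zero_mul, add_zero, zero_add] at e3 e4
  have e5 : (fun w : H3 => f (1 / w.v) * (starRingEnd ℂ)
      (E 1 R1.eta f w - E 1 R1.eta f (KU.Smat O • w))) =
      fun w : H3 => f (1 / w.v) * (starRingEnd ℂ) (E 1 R1.eta f w) -
        f (1 / w.v) * (starRingEnd ℂ) (E 1 R1.eta f (KU.Smat O • w)) := by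
    funext w
    rw [map_sub]; ring
  have e6 : ∫ x in Ioi (0 : ℝ), (x : ℂ) * (f x * (starRingEnd ℂ)
      ((Real.pi / 6 * (1 / x) : ℝ) * (CTq f 1 (1 / x) - CTq f lam (1 / x)))) =
      ((Real.pi / 6 : ℝ) : ℂ) * Tq H 1 + ((-(Real.pi / 6) : ℝ) : ℂ) * Tq H lam := by
    rw [← e4]
    congr 1; funext x
    congr 3
    push_cast; ring
  rw [e5, integral_sub i1 i2, e1, e2, e3, e6, IP_self]
  push_cast; ring

/-- the right-hand side of the strip inequality for `S` -/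
theorem re_S_le (hf : CL f) (h : HPair f f H H1) {A : ℝ} (hA : 1 ≤ A) :
    (∫ w in P3, f (1 / w.v) * (starRingEnd ℂ)
      (E 1 R1.eta f w - E 1 R1.eta f (KU.Smat O • w)) ∂muH).re ≤
      (area + 2 * Real.pi / 3 * cE) * noise f H H1 A := by
  have hm : Real.pi / 2 * Dq ellL + (-(Real.pi / 6)) * Dq ell1 = 0 := by
    rw [Dq_lam, ← D1]; ring
  have h1 := re_bound hf h isEll_lam isEll_one hA area (Real.pi / 2) (-(Real.pi / 6)) (Or.inl hm)
  rw [eval_S hf h]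
  refine h1.trans (le_of_eq ?_)
  rw [abs_of_pos H9.area_pos, abs_neg, abs_of_pos (by positivity), abs_of_pos (by positivity)]
  ring

/-- **(G*S)**, every cusp -/
theorem G_S (hf : CL f) (h : HPair f f H H1) {A : ℝ} (hA : 1 ≤ A)
    (σ : SpecialLinearGroup (Fin 2) O) {v0 : ℝ} (hv0 : 0 < v0) :
    ∫⁻ w in Ptop v0, ‖E 1 R1.eta f (KU.Smat O • σ • w) - E 1 R1.eta f (σ • w)‖ₑ ^ 2 ∂muH ≤
      ENNReal.ofReal (12800 * (1 + (v0 ^ 2)⁻¹) *
        ((area + 2 * Real.pi / 3 * cE) * noise f H H1 A)) := by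
  obtain ⟨A', hA'⟩ := hf.decay
  refine (H9.strip_E_smul_sub R1.rowChar_eta hf.meas hA' R1.chiOf_eta_S σ hv0).trans ?_
  rw [← ENNReal.ofReal_mul (by positivity)]
  apply ENNReal.ofReal_le_ofReal
  have h1 := re_S_le hf h hA
  calc 6400 * (1 + (v0 ^ 2)⁻¹) * (2 * (∫ w in P3, f (1 / w.v) * (starRingEnd ℂ)
        (E 1 R1.eta f w - E 1 R1.eta f (KU.Smat O • w)) ∂muH).re)
      ≤ 6400 * (1 + (v0 ^ 2)⁻¹) * (2 * ((area + 2 * Real.pi / 3 * cE) * noise f H H1 A)) := by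
        gcongr
    _ = _ := by ring

/-- **(G*S)** in the strip above the standard cusp: `E_f(S w)` against `E_f(w)` -/
theorem G_S_one (hf : CL f) (h : HPair f f H H1) {A : ℝ} (hA : 1 ≤ A) {v0 : ℝ} (hv0 : 0 < v0) :
    ∫⁻ w in Ptop v0, ‖E 1 R1.eta f (KU.Smat O • w) - E 1 R1.eta f w‖ₑ ^ 2 ∂muH ≤
      ENNReal.ofReal (12800 * (1 + (v0 ^ 2)⁻¹) *
        ((area + 2 * Real.pi / 3 * cE) * noise f H H1 A)) := by
  have := G_S hf h hA 1 hv0
  simpa only [one_smul] using this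

end

end Vale.Agent.P006.GRAM
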