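import Vale.Agent.P006.GRAM.Assembly
import Vale.Agent.P006.R1.Bridge
import Vale.Agent.P006.KU.CT5

/-!
P006, block GRAM: the strip inequalities for profiles in the class `CL`, in terms of the
constant terms.
-/

namespace Vale.Agent.P006.GRAM

open MeasureTheory Set Filter Topology Matrix Vale.Agent.P006 KU
open Vale.Agent.P006.H9 (H3 muH P3 box area E Ptop Ediff RowChar Decay Q chiOf)

section

variable {f : ℝ → ℂ}

theorem CL.decay (hf : CL f) : ∃ A, Decay f A := by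
  obtain ⟨C, hC0, hC⟩ := hf.bound
  refine ⟨C, fun x hx => (hC x hx).trans ?_⟩
  rw [div_eq_mul_inv]
  gcongr
  · linarith
  · norm_num

variable {η : O → O → ℂ} (hη : RowChar η) (hf : CL f)
include hη hf

theorem measurable_E_cl (q : O) : Measurable (E q η f) := by
  have := hη
  exact H9.measurable_E q η hf.meas

theorem integrable_bdd {F : H3 → ℂ} (hF : Measurable F) {M : ℝ} (hM : ∀ w, ‖F w‖ ≤ M) :
    Integrable (fun w : H3 => f (1 / w.v) * (starRingEnd ℂ) (F w)) (muH.restrict P3) := by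
  have := hη
  obtain ⟨A, hA⟩ := hf.decay
  exact H9.integrable_decay hf.meas hA hF hM

theorem bdd_E (q : O) : ∃ M, ∀ w, ‖E q η f w‖ ≤ M := by
  obtain ⟨A, hA⟩ := hf.decay
  exact ⟨A * H9.rowC.toReal, H9.norm_E_le hη hA q⟩

end

/-! ### constant terms -/

theorem CL.cls {f : ℝ → ℂ} (hf : CL f) : ∃ C, KU.CT.Cls f C := by
  obtain ⟨C, _, hC⟩ := hf.bound
  exact ⟨C, hf.meas, hC⟩

/-- constant term of the level `q` series at infinity -/
theorem ct_q {f : ℝ → ℂ} (hf : CL f) {q q' : O} (hq : ∀ m : O, q ∣ m ^ 3 → q ∣ m)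
    (hq' : ∀ m : O, (lam ∣ m ∧ q ∣ m) ↔ q' ∣ m) (v : ℝ) (hv : 0 < v) :
    ∫ z in box, E q R1.eta f (H3.of z v) =
      (area : ℂ) * f (1 / v) + (Real.pi / 3 * v : ℝ) * CTq f q' v := by
  obtain ⟨C, hC⟩ := hf.cls
  have h := (KU.CT.ct_infty hv hC hq).2
  rw [← KU.CT.box_eq_cell] at h
  have e : KU.CT.eta = R1.eta := rfl
  rw [e] at h
  rw [h]
  congr 1
  have e2 : (∑' m : O, KU.CT.mt f v (fun m => lam ∣ m ∧ q ∣ m) m) = CTq f q' v := by
    classical
    rw [CTq]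
    refine tsum_congr fun m => ?_
    unfold KU.CT.mt
    by_cases hm : m ≠ 0 ∧ q' ∣ m
    · rw [if_pos hm, if_pos ⟨hm.1, (hq' m).2 hm.2⟩]; rfl
    · rw [if_neg hm, if_neg (fun h' => hm ⟨h'.1, (hq' m).1 h'.2⟩)]
  rw [e2]
  push_cast; ring

theorem ct_one {f : ℝ → ℂ} (hf : CL f) (v : ℝ) (hv : 0 < v) :
    ∫ z in box, E 1 R1.eta f (H3.of z v) =
      (area : ℂ) * f (1 / v) + (Real.pi / 3 * v : ℝ) * CTq f lam v :=
  ct_q hf (fun _ _ => one_dvd _) (fun m => by simp) v hv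

theorem ct_p {f : ℝ → ℂ} (hf : CL f) {p : O} (hp : Prime p) (hpp : Primary p) (v : ℝ)
    (hv : 0 < v) : ∫ z in box, E p R1.eta f (H3.of z v) =
      (area : ℂ) * f (1 / v) + (Real.pi / 3 * v : ℝ) * CTq f (lam * p) v :=
  ct_q hf (fun _ h => hp.dvd_of_dvd_pow h) (fun m =>
    ⟨fun h => hpp.isCoprime_lam.mul_dvd h.1 h.2,
      fun h => ⟨(dvd_mul_right _ _).trans h, (dvd_mul_left _ _).trans h⟩⟩) v hv

/-! ### the strip inequalities -/

/-- the noise dominates its first component -/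
theorem nrm2_le_noise (f H H1 : ℝ → ℂ) {A : ℝ} (hA : 1 ≤ A) : nrm2 f ≤ noise f H H1 A := by
  have := nJ0_nonneg (H := H)
  have := nJ1_nonneg (H1 := H1)
  have := nL_nonneg (H := H)
  have := Real.log_nonneg hA
  have : 0 ≤ (1 + Real.log A) * (nJ0 H + nJ1 H1) := by positivity
  have : 0 ≤ nL H / A := by positivity
  unfold noise; linarith

section

variable {f H H1 : ℝ → ℂ} (hf : CL f) (h : HPair f f H H1)

include hf h

theorem eval_E : ∫ w in P3, f (1 / w.v) * (starRingEnd ℂ) (E 1 R1.eta f w) ∂muH =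
    (area : ℂ) * (nrm2 f : ℂ) + (Real.pi / 3 : ℝ) * Tq H lam := by
  obtain ⟨M, hM⟩ := bdd_E R1.rowChar_eta hf 1
  have hi := integrable_bdd R1.rowChar_eta hf (measurable_E_cl R1.rowChar_eta hf 1) hM
  have e := strip_ct hi (ct_one hf)
  have e2 := ct_eval hf hf h area (Real.pi / 3) 0 lam lam
  rw [e, ← IP_self]
  simp only [Complex.ofReal_zero, zero_mul, add_zero] at e2
  exact e2

/-- general estimate for combinations of constant terms -/
theorem re_bound {q q' : O} {ell ell' : O → O} (hl : IsEll q ell)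
    (hl' : IsEll q' ell') {A : ℝ} (hA : 1 ≤ A) (a b b' : ℝ)
    (hmain : (b * Dq ell + b' * Dq ell' = 0) ∨ Lam H = 0) :
    ((a : ℂ) * (nrm2 f : ℂ) + (b : ℂ) * Tq H q + (b' : ℂ) * Tq H q').re ≤
      (|a| + (|b| + |b'|) * cE) * noise f H H1 A := by
  have := hf
  refine (Complex.re_le_norm _).trans ((eval_bound h hl hl' hA a b b' _ hmain).trans ?_)
  have h2 := Err_le f H H1 hA
  have h3 := nrm2_nonneg f
  have h4 := nrm2_le_noise f H H1 hA
  rw [Complex.norm_real, Real.norm_eq_abs, abs_of_nonneg h3]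
  calc |a| * nrm2 f + (|b| + |b'|) * Err H H1 A
      ≤ |a| * noise f H H1 A + (|b| + |b'|) * (cE * noise f H H1 A) := by gcongr
    _ = _ := by ring

/-- the right-hand side of the strip inequality for `l(f) = 0` -/
theorem re_E_le (hl : lf f = 0) {A : ℝ} (hA : 1 ≤ A) :
    (∫ w in P3, f (1 / w.v) * (starRingEnd ℂ) (E 1 R1.eta f w) ∂muH).re ≤
      (area + Real.pi / 3 * cE) * noise f H H1 A := by
  have hL : Lam H = 0 := by rw [h.Lam_eq hf hf, hl, zero_mul]
  have h1 := re_bound hf h isEll_lam isEll_lam hA area (Real.pi / 3) 0 (Or.inr hL)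
  rw [eval_E hf h]
  simp only [Complex.ofReal_zero, zero_mul, add_zero, abs_zero] at h1
  rwa [abs_of_pos H9.area_pos, abs_of_pos (by positivity)] at h1

/-- **(G\*)**, every cusp -/
theorem G_star (hl : lf f = 0) {A : ℝ} (hA : 1 ≤ A) (σ : SpecialLinearGroup (Fin 2) O) {v0 : ℝ}
    (hv0 : 0 < v0) :
    ∫⁻ w in Ptop v0, ‖E 1 R1.eta f (σ • w)‖ₑ ^ 2 ∂muH ≤ ENNReal.ofReal
      (6400 * (1 + (v0 ^ 2)⁻¹) * ((area + Real.pi / 3 * cE) * noise f H H1 A)) := by
  obtain ⟨A', hA'⟩ := hf.decay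
  refine (H9.strip_E R1.rowChar_eta hf.meas hA' σ hv0).trans ?_
  rw [ENNReal.ofReal_mul (p := 6400 * (1 + (v0 ^ 2)⁻¹)) (by positivity)]
  exact mul_le_mul_right (ENNReal.ofReal_le_ofReal (re_E_le hf h hl hA)) _

/-- evaluation for the level `p` difference -/
theorem eval_Ediff {p : O} (hp : Prime p) (hpp : Primary p) :
    ∫ w in P3, f (1 / w.v) * (starRingEnd ℂ) (Ediff p R1.eta f w) ∂muH =
    ((area * (1 - 1 / (N p + 1)) : ℝ) : ℂ) * (nrm2 f : ℂ) + (Real.pi / 3 : ℝ) * Tq H (lam * p)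
      + (-(Real.pi / 3 * (1 / (N p + 1))) : ℝ) * Tq H lam := by
  obtain ⟨M, hM⟩ := bdd_E R1.rowChar_eta hf 1
  obtain ⟨M', hM'⟩ := bdd_E R1.rowChar_eta hf p
  have m1 := measurable_E_cl R1.rowChar_eta hf 1
  have m2 := measurable_E_cl R1.rowChar_eta hf p
  have i1 := integrable_bdd R1.rowChar_eta hf m1 hM
  have i2 := integrable_bdd R1.rowChar_eta hf m2 hM'
  have e1 := strip_ct i1 (ct_one hf)
  have e2 := strip_ct i2 (ct_p hf hp hpp)
  have e3 := ct_eval hf hf h area (Real.pi / 3) 0 lam lam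
  have e4 := ct_eval hf hf h area (Real.pi / 3) 0 (lam * p) lam
  simp only [Complex.ofReal_zero, zero_mul, add_zero] at e3 e4
  have e5 : (fun w : H3 => f (1 / w.v) * (starRingEnd ℂ) (Ediff p R1.eta f w)) =
      fun w : H3 => f (1 / w.v) * (starRingEnd ℂ) (E p R1.eta f w) -
        ((1 / (N p + 1) : ℝ) : ℂ) * (f (1 / w.v) * (starRingEnd ℂ) (E 1 R1.eta f w)) := by
    funext w
    rw [Ediff, map_sub, map_mul, map_inv₀, Complex.conj_natCast]
    push_cast; ring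
  rw [e5, integral_sub i2 (i1.const_mul _), integral_const_mul, e1, e2, e3, e4, IP_self]
  push_cast; ring

/-- the right-hand side of the strip inequality of level `p` -/
theorem re_Ediff_le {p : O} (hp : Prime p) (hpp : Primary p) {A : ℝ} (hA : 1 ≤ A) :
    (∫ w in P3, f (1 / w.v) * (starRingEnd ℂ) (Ediff p R1.eta f w) ∂muH).re ≤
      (area + 2 * Real.pi / 3 * cE) * noise f H H1 A := by
  have hN : (0 : ℝ) ≤ N p := Nat.cast_nonneg _
  have hN1 : (0 : ℝ) < (N p : ℝ) + 1 := by positivity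
  have hx0 : (0 : ℝ) ≤ 1 / ((N p : ℝ) + 1) := by positivity
  have hx1 : 1 / ((N p : ℝ) + 1) ≤ 1 := by
    rw [div_le_one hN1]; linarith
  have hm : Real.pi / 3 * Dq (ellLp p) + (-(Real.pi / 3 * (1 / (N p + 1)))) * Dq ellL = 0 := by
    rw [Dq_lam_p hp hpp, Dq_lam]
    field_simp
    ring
  have h1 := re_bound hf h (isEll_lam_p hp hpp) isEll_lam hA (area * (1 - 1 / (N p + 1)))
    (Real.pi / 3) (-(Real.pi / 3 * (1 / (N p + 1)))) (Or.inl hm)
  rw [eval_Ediff hf h hp hpp]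
  refine h1.trans ?_
  have hn := noise_nonneg f H H1 hA
  have hc := cE_nonneg
  have ha := H9.area_pos
  have hpi := Real.pi_pos
  apply mul_le_mul_of_nonneg_right _ hn
  have a1 : |area * (1 - 1 / ((N p : ℝ) + 1))| ≤ area := by
    rw [abs_mul, abs_of_pos ha, abs_of_nonneg (by linarith)]
    exact mul_le_of_le_one_right ha.le (by linarith)
  have a2 : |Real.pi / 3| = Real.pi / 3 := abs_of_pos (by positivity)
  have a3 : |-(Real.pi / 3 * (1 / ((N p : ℝ) + 1)))| ≤ Real.pi / 3 := by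
    rw [abs_neg, abs_of_nonneg (by positivity)]
    exact mul_le_of_le_one_right (by positivity) hx1
  rw [a2]
  have a4 : (Real.pi / 3 + |-(Real.pi / 3 * (1 / ((N p : ℝ) + 1)))|) * cE ≤
      (Real.pi / 3 + Real.pi / 3) * cE := by gcongr
  linarith

/-- **(HS)** in block FC's form -/
theorem strip_FS_le (hl : lf f = 0) {A : ℝ} (hA : 1 ≤ A) {a : ℝ} (ha : 0 < a) :
    ∫⁻ p, ‖FC.FS f p‖ₑ ^ 2 ∂(FC.mB (FC.km (Ioc a (2 * a)))) ≤ ENNReal.ofReal
      (51200 * (area + Real.pi / 3 * cE) * (a ^ 3 + a) * noise f H H1 A) := by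
  obtain ⟨A', hA'⟩ := hf.decay
  refine (R1.strip_FS hf.meas hA' ha).trans ?_
  rw [← ENNReal.ofReal_mul (by positivity)]
  apply ENNReal.ofReal_le_ofReal
  calc 51200 * (a ^ 3 + a) * (∫ w in P3, f (1 / w.v) * (starRingEnd ℂ) (E 1 R1.eta f w) ∂muH).re
      ≤ 51200 * (a ^ 3 + a) * ((area + Real.pi / 3 * cE) * noise f H H1 A) := by
        gcongr
        exact re_E_le hf h hl hA
    _ = _ := by ring

/-- **(HS)** of level `p` in block FC's form -/
theorem strip_FSa_le {p : O} (hp : Prime p) (hpp : Primary p) {A : ℝ} (hA : 1 ≤ A) {a : ℝ}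
    (ha : 0 < a) :
    ∫⁻ x, ‖R1.FSa (R1.aw p) f x‖ₑ ^ 2 ∂(FC.mB (FC.km (Ioc a (2 * a)))) ≤ ENNReal.ofReal
      (51200 * (area + 2 * Real.pi / 3 * cE) * (a ^ 3 + a) * noise f H H1 A) := by
  obtain ⟨A', hA'⟩ := hf.decay
  refine (R1.strip_FSa hf.meas hA' hp hpp ha).trans ?_
  rw [← ENNReal.ofReal_mul (by positivity)]
  apply ENNReal.ofReal_le_ofReal
  calc 51200 * (a ^ 3 + a) *
        (∫ w in P3, f (1 / w.v) * (starRingEnd ℂ) (Ediff p R1.eta f w) ∂muH).re
      ≤ 51200 * (a ^ 3 + a) * ((area + 2 * Real.pi / 3 * cE) * noise f H H1 A) := by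
        gcongr
        exact re_Ediff_le hf h hp hpp hA
    _ = _ := by ring

end

end Vale.Agent.P006.GRAM
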